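import Mathlib
import Crest.Prelude.Def_GroupRingDet
import Crest.Agent.R184A.Defs

-- ▼ part R184A/FKRep
section

/-! Row 184, T7: Fuglede-Kadison determinant, the regular representation of matrices over `ℂ[G]`. -/

set_option autoImplicit false

namespace Crest.Agent.R184A

open Crest.AlgebraR.GroupRingDet

/-- a Hilbert space with a basis indexed by `Fin n × G` and the representation of the matrices over
`ℂ[G]` -/
structure Rep (G : Type) [Group G] (n : ℕ) (H : Type) [NormedAddCommGroup H]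
    [InnerProductSpace ℂ H] [CompleteSpace H] where
  b : HilbertBasis (Fin n × G) ℂ H
  Φ : Matrix (Fin n) (Fin n) (MonoidAlgebra ℂ G) →+* (H →L[ℂ] H)
  coeff : ∀ A i j g h, inner ℂ (b (i, h)) (Φ A (b (j, g))) = (A i j).coeff (h * g⁻¹)

section RegRep

/-- `ℓ²(ι)` -/
abbrev RL2 (ι : Type) : Type := lp (fun _ : ι => ℂ) 2

/-- the standard basis of `ℓ²(ι)` -/
noncomputable def rstd (ι : Type) : HilbertBasis ι ℂ (RL2 ι) := ⟨LinearIsometryEquiv.refl ℂ _⟩

/-- continuous linear maps agreeing on a Hilbert basis are equal -/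
theorem rhb_ext {ι : Type} {H H' : Type} [NormedAddCommGroup H] [InnerProductSpace ℂ H]
    [NormedAddCommGroup H'] [InnerProductSpace ℂ H'] (b : HilbertBasis ι ℂ H)
    (S T : H →L[ℂ] H') (h : ∀ i, S (b i) = T (b i)) : S = T := by
  apply ContinuousLinearMap.ext_on (s := Set.range b)
  · rw [Submodule.dense_iff_topologicalClosure_eq_top]
    exact b.dense_span
  · rintro _ ⟨i, rfl⟩
    exact h i

/-- the permuted basis -/
noncomputable def rperm {ι : Type} {H : Type} [NormedAddCommGroup H] [InnerProductSpace ℂ H]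
    [CompleteSpace H] (b : HilbertBasis ι ℂ H) (σ : ι ≃ ι) : HilbertBasis ι ℂ H :=
  HilbertBasis.mk (v := b ∘ σ) (b.orthonormal.comp σ σ.injective) (by
    rw [Set.range_comp, σ.surjective.range_eq, Set.image_univ]
    exact b.dense_span.ge)

theorem rperm_apply {ι : Type} {H : Type} [NormedAddCommGroup H] [InnerProductSpace ℂ H]
    [CompleteSpace H] (b : HilbertBasis ι ℂ H) (σ : ι ≃ ι) (i : ι) :
    rperm b σ i = b (σ i) := by
  unfold rperm
  rw [HilbertBasis.coe_mk]
  rfl

/-- permutation unitary -/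
noncomputable def rU {ι : Type} {H : Type} [NormedAddCommGroup H] [InnerProductSpace ℂ H]
    [CompleteSpace H] (b : HilbertBasis ι ℂ H) (σ : ι ≃ ι) : H →L[ℂ] H :=
  ((b.repr.trans (rperm b σ).repr.symm).toContinuousLinearEquiv : H →L[ℂ] H)

theorem rU_apply {ι : Type} {H : Type} [NormedAddCommGroup H] [InnerProductSpace ℂ H]
    [CompleteSpace H] (b : HilbertBasis ι ℂ H) (σ : ι ≃ ι) (i : ι) :
    rU b σ (b i) = b (σ i) := by
  classical
  unfold rU
  simp only [ContinuousLinearEquiv.coe_coe, LinearIsometryEquiv.coe_toContinuousLinearEquiv,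
    LinearIsometryEquiv.trans_apply, HilbertBasis.repr_self]
  rw [HilbertBasis.repr_symm_single, rperm_apply]

/-- left regular representation of `G` on `ℓ²(G)` -/
noncomputable def rlam (G : Type) [Group G] : G →* (RL2 G →L[ℂ] RL2 G) where
  toFun k := rU (rstd G) (Equiv.mulLeft k)
  map_one' := by
    apply rhb_ext (rstd G)
    intro i
    rw [rU_apply]
    simp
  map_mul' k l := by
    apply rhb_ext (rstd G)
    intro i
    rw [_root_.mul_apply_eq_comp, rU_apply, rU_apply, rU_apply]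
    simp

theorem rlam_apply (G : Type) [Group G] (k g : G) : rlam G k (rstd G g) = rstd G (k * g) := by
  exact rU_apply _ _ _

/-- left regular representation of `ℂ[G]` on `ℓ²(G)` -/
noncomputable def rlamA (G : Type) [Group G] : MonoidAlgebra ℂ G →ₐ[ℂ] (RL2 G →L[ℂ] RL2 G) :=
  MonoidAlgebra.lift ℂ _ G (rlam G)

theorem rlamA_coeff (G : Type) [Group G] (a : MonoidAlgebra ℂ G) (g h : G) :
    inner ℂ (rstd G h) (rlamA G a (rstd G g)) = a.coeff (h * g⁻¹) := by
  classical
  induction a using MonoidAlgebra.induction_linear with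
  | zero => simp
  | add f g' hf hg => simp [hf, hg]
  | single k r =>
    unfold rlamA
    rw [MonoidAlgebra.lift_single]
    rw [_root_.smul_apply, rlam_apply, inner_smul_right,
      orthonormal_iff_ite.mp (rstd G).orthonormal, MonoidAlgebra.coeff_single, Finsupp.single_apply]
    by_cases hk : h = k * g
    · subst hk
      simp
    · have : ¬ k = h * g⁻¹ := by
        rintro rfl
        apply hk
        simp
      simp [hk, this]

/-- `ℓ²(G)^n` -/
abbrev RPi (G : Type) (n : ℕ) : Type := PiLp 2 (fun _ : Fin n => RL2 G)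

/-- matrices over `ℂ[G]` act on `ℓ²(G)^n` -/
noncomputable def rΦL (G : Type) [Group G] (n : ℕ) (A : Matrix (Fin n) (Fin n) (MonoidAlgebra ℂ G)) :
    RPi G n →L[ℂ] RPi G n :=
  ((PiLp.continuousLinearEquiv 2 ℂ (fun _ : Fin n => RL2 G)).symm : _ →L[ℂ] RPi G n) ∘L
    ContinuousLinearMap.pi (fun i => ∑ j, (rlamA G (A i j)) ∘L PiLp.proj 2 (fun _ : Fin n => RL2 G) j)

theorem rΦL_apply (G : Type) [Group G] (n : ℕ) (A : Matrix (Fin n) (Fin n) (MonoidAlgebra ℂ G))
    (x : RPi G n) (i : Fin n) : (rΦL G n A x) i = ∑ j, rlamA G (A i j) (x j) := by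
  unfold rΦL
  simp

/-- the ring homomorphism -/
noncomputable def rΦ (G : Type) [Group G] (n : ℕ) :
    Matrix (Fin n) (Fin n) (MonoidAlgebra ℂ G) →+* (RPi G n →L[ℂ] RPi G n) where
  toFun := rΦL G n
  map_one' := by
    ext1 x
    ext1 i
    rw [rΦL_apply, Finset.sum_eq_single i]
    · rw [Matrix.one_apply_eq, map_one]
      rfl
    · intro j _ hj
      rw [Matrix.one_apply_ne hj.symm, map_zero]
      rfl
    · intro hi
      exact absurd (Finset.mem_univ i) hi
  map_mul' A B := by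
    ext1 x
    ext1 i
    rw [rΦL_apply, _root_.mul_apply_eq_comp, rΦL_apply]
    have h1 : ∀ j, rlamA G ((A * B) i j) (x j) =
        ∑ k, rlamA G (A i k) (rlamA G (B k j) (x j)) := by
      intro j
      rw [Matrix.mul_apply, map_sum, _root_.sum_apply]
      refine Finset.sum_congr rfl fun k _ => ?_
      rw [map_mul, _root_.mul_apply_eq_comp]
    have h2 : ∀ k, rlamA G (A i k) ((rΦL G n B x) k) =
        ∑ j, rlamA G (A i k) (rlamA G (B k j) (x j)) := by
      intro k
      rw [rΦL_apply, map_sum]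
    rw [Finset.sum_congr rfl fun j _ => h1 j, Finset.sum_congr rfl fun k _ => h2 k,
      Finset.sum_comm]
  map_zero' := by
    ext1 x
    ext1 i
    rw [rΦL_apply]
    simp
  map_add' A B := by
    ext1 x
    ext1 i
    rw [rΦL_apply, _root_.add_apply, PiLp.add_apply, rΦL_apply, rΦL_apply]
    simp [Finset.sum_add_distrib]

/-- the basis vectors -/
noncomputable def rv (G : Type) (n : ℕ) (p : Fin n × G) : RPi G n :=
  WithLp.toLp 2 (Pi.single p.1 (rstd G p.2))

theorem rv_inner (G : Type) (n : ℕ) (i : Fin n) (g : G) (x : RPi G n) :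
    inner ℂ (rv G n (i, g)) x = inner ℂ (rstd G g) (x i) := by
  rw [PiLp.inner_apply, Finset.sum_eq_single i]
  · simp [rv]
  · intro j _ hj
    simp [rv, hj]
  · intro hi
    exact absurd (Finset.mem_univ i) hi

theorem rv_orth (G : Type) (n : ℕ) : Orthonormal ℂ (rv G n) := by
  classical
  rw [orthonormal_iff_ite]
  rintro ⟨i, g⟩ ⟨j, h⟩
  rw [rv_inner]
  by_cases hij : i = j
  · subst hij
    simp only [rv, Pi.single_eq_same]
    rw [orthonormal_iff_ite.mp (rstd G).orthonormal]
    simp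
  · simp [rv, hij]

/-- the Hilbert basis of `ℓ²(G)^n` -/
noncomputable def rbasis (G : Type) (n : ℕ) : HilbertBasis (Fin n × G) ℂ (RPi G n) :=
  HilbertBasis.mkOfOrthogonalEqBot (rv_orth G n) (by
    rw [Submodule.eq_bot_iff]
    intro x hx
    rw [Submodule.mem_orthogonal] at hx
    ext1 i
    have h : ∀ g, inner ℂ (rstd G g) (x i) = 0 := by
      intro g
      rw [← rv_inner]
      exact hx _ (Submodule.subset_span ⟨(i, g), rfl⟩)
    have h2 := (rstd G).repr.map_eq_zero_iff (x := x i)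
    show x i = 0
    rw [← h2]
    ext g
    rw [HilbertBasis.repr_apply_apply, h]
    rfl)

theorem rbasis_apply (G : Type) (n : ℕ) (p : Fin n × G) : rbasis G n p = rv G n p := by
  unfold rbasis
  rw [HilbertBasis.coe_mkOfOrthogonalEqBot]

theorem rcoeff (G : Type) [Group G] (n : ℕ) (A : Matrix (Fin n) (Fin n) (MonoidAlgebra ℂ G))
    (i j : Fin n) (g h : G) :
    inner ℂ (rbasis G n (i, h)) (rΦ G n A (rbasis G n (j, g))) = (A i j).coeff (h * g⁻¹) := by
  rw [rbasis_apply, rbasis_apply, rv_inner]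
  have h1 : (rΦ G n A (rv G n (j, g))) i = rlamA G (A i j) (rstd G g) := by
    show (rΦL G n A (rv G n (j, g))) i = _
    rw [rΦL_apply, Finset.sum_eq_single j]
    · simp [rv]
    · intro k _ hk
      simp [rv, hk]
    · intro hi
      exact absurd (Finset.mem_univ j) hi
  rw [h1, rlamA_coeff]

end RegRep

/-- T7a -/
theorem exists_rep (G : Type) [Group G] (n : ℕ) :
    ∃ (H : Type) (_ : NormedAddCommGroup H) (_ : InnerProductSpace ℂ H) (_ : CompleteSpace H),
      Nonempty (Rep G n H) :=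
  ⟨RPi G n, inferInstance, inferInstance, inferInstance,
    ⟨{ b := rbasis G n
       Φ := rΦ G n
       coeff := rcoeff G n }⟩⟩

end Crest.Agent.R184A
end

-- ▼ part R184A/H138Basic
section

/-!
# Row 184 (S0276): Fuglede-Kadison part, basic objects (helper138)

`shiftOp b v hv` is the isometry with `b x ↦ v x`; `rt b k` the right translation; `Comm b S`: `S`
commutes with the right translations; `trC` the complex trace; `trC_mul_comm` the trace property.
-/

set_option autoImplicit false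
set_option linter.unusedSectionVars false

namespace Crest.Agent.R184A.H138

open Crest.AlgebraR.GroupRingDet

section shift

variable {ι : Type*} {H : Type*} [NormedAddCommGroup H] [InnerProductSpace ℂ H] [CompleteSpace H]

/-- the isometry sending the Hilbert basis `b` to the orthonormal family `v` -/
noncomputable def shiftOp (b : HilbertBasis ι ℂ H) (v : ι → H) (hv : Orthonormal ℂ v) :
    H →ₗᵢ[ℂ] H :=
  (hv.orthogonalFamily.linearIsometry).comp b.repr.toLinearIsometry

theorem shiftOp_apply (b : HilbertBasis ι ℂ H) (v : ι → H) (hv : Orthonormal ℂ v) (x : ι) :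
    shiftOp b v hv (b x) = v x := by
  classical
  show hv.orthogonalFamily.linearIsometry (b.repr (b x)) = v x
  rw [b.repr_self, OrthogonalFamily.linearIsometry_apply_single]
  simp

/-- two continuous linear maps agreeing on a Hilbert basis are equal -/
theorem ext_basis (b : HilbertBasis ι ℂ H) {F : Type*} [NormedAddCommGroup F] [NormedSpace ℂ F]
    {S T : H →L[ℂ] F} (h : ∀ x, S (b x) = T (b x)) : S = T := by
  apply ContinuousLinearMap.ext_on (s := Set.range b)
  · rw [dense_iff_closure_eq]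
    have := b.dense_span
    rw [← Submodule.topologicalClosure_coe, this]
    rfl
  · rintro _ ⟨x, rfl⟩
    exact h x

end shift

variable {G : Type*} [Group G] {n : ℕ} {H : Type*} [NormedAddCommGroup H] [InnerProductSpace ℂ H]
  [CompleteSpace H] (b : HilbertBasis (Fin n × G) ℂ H)

theorem orthonormal_comp_inj {ι : Type*} (b : HilbertBasis ι ℂ H) (f : ι → ι)
    (hf : Function.Injective f) : Orthonormal ℂ (fun x => b (f x)) :=
  b.orthonormal.comp f hf

theorem orthonormal_rt (k : G) : Orthonormal ℂ (fun x : Fin n × G => b (x.1, x.2 * k)) :=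
  orthonormal_comp_inj b (fun x => (x.1, x.2 * k)) (fun x y h => by
      simp only [Prod.mk.injEq, mul_left_inj] at h
      exact Prod.ext h.1 h.2)

/-- right translation by `k` -/
noncomputable def rt (k : G) : H →L[ℂ] H :=
  (shiftOp b (fun x => b (x.1, x.2 * k)) (orthonormal_rt b k)).toContinuousLinearMap

theorem rt_apply (k : G) (i : Fin n) (g : G) : rt b k (b (i, g)) = b (i, g * k) := by
  exact shiftOp_apply b _ (orthonormal_rt b k) (i, g)

theorem rt_inner (k : G) (x y : H) : inner ℂ (rt b k x) (rt b k y) = inner ℂ x y := by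
  unfold rt
  exact LinearIsometry.inner_map_map _ x y

/-- `S` commutes with all right translations -/
def Comm (S : H →L[ℂ] H) : Prop := ∀ k : G, S * rt b k = rt b k * S

theorem Comm.coeff {S : H →L[ℂ] H} (hS : Comm b S) (i j : Fin n) (g h k : G) :
    inner ℂ (b (i, h * k)) (S (b (j, g * k))) = inner ℂ (b (i, h)) (S (b (j, g))) := by
  have h1 : S (b (j, g * k)) = rt b k (S (b (j, g))) := by
    rw [← rt_apply b k j g]
    exact congrArg (fun T : H →L[ℂ] H => T (b (j, g))) (hS k)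
  rw [h1, ← rt_apply b k i h, rt_inner]

/-- the complex trace -/
noncomputable def trC (S : H →L[ℂ] H) : ℂ := ∑ i : Fin n, inner ℂ (b (i, 1)) (S (b (i, 1)))

theorem opTrace_eq (S : H →L[ℂ] H) : opTrace b S = (trC b S).re := by
  unfold opTrace trC
  rw [Complex.re_sum]

theorem trC_mul_comm {S T : H →L[ℂ] H} (hS : Comm b S) (hT : Comm b T) :
    trC b (S * T) = trC b (T * S) := by
  have key : ∀ (S T : H →L[ℂ] H) (i : Fin n),
      Summable (fun x : Fin n × G => inner ℂ (b (i, 1)) (S (b x)) * inner ℂ (b x) (T (b (i, 1))))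
      ∧ inner ℂ (b (i, 1)) ((S * T) (b (i, 1))) =
        ∑' x : Fin n × G, inner ℂ (b (i, 1)) (S (b x)) * inner ℂ (b x) (T (b (i, 1))) := by
    intro S T i
    have h1 := b.hasSum_inner_mul_inner (ContinuousLinearMap.adjoint S (b (i, 1))) (T (b (i, 1)))
    have h2 : ∀ x, inner ℂ (ContinuousLinearMap.adjoint S (b (i, 1))) (b x)
        = inner ℂ (b (i, 1)) (S (b x)) := fun x =>
      ContinuousLinearMap.adjoint_inner_left S (b x) (b (i, 1))
    simp only [h2] at h1
    rw [ContinuousLinearMap.adjoint_inner_left] at h1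
    exact ⟨h1.summable, h1.tsum_eq.symm⟩
  unfold trC
  have step : ∀ (S T : H →L[ℂ] H), ∑ i : Fin n, inner ℂ (b (i, 1)) ((S * T) (b (i, 1))) =
      ∑ i : Fin n, ∑ j : Fin n, ∑' g : G,
        inner ℂ (b (i, 1)) (S (b (j, g))) * inner ℂ (b (j, g)) (T (b (i, 1))) := by
    intro S T
    refine Finset.sum_congr rfl fun i _ => ?_
    rw [(key S T i).2, (key S T i).1.tsum_prod, tsum_fintype]
  rw [step S T, step T S, Finset.sum_comm]
  refine Finset.sum_congr rfl fun j _ => Finset.sum_congr rfl fun i _ => ?_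
  rw [← (Equiv.inv G).tsum_eq]
  refine tsum_congr fun g => ?_
  have e1 : inner ℂ (b (i, 1)) (S (b (j, g⁻¹))) = inner ℂ (b (i, g)) (S (b (j, 1))) := by
    have := hS.coeff b i j g⁻¹ 1 g
    rw [one_mul, inv_mul_cancel] at this
    exact this.symm
  have e2 : inner ℂ (b (j, g⁻¹)) (T (b (i, 1))) = inner ℂ (b (j, 1)) (T (b (i, g))) := by
    have := hT.coeff b j i 1 g⁻¹ g
    rw [one_mul, inv_mul_cancel] at this
    exact this.symm
  rw [Equiv.inv_apply, e1, e2, mul_comm]

end Crest.Agent.R184A.H138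
end

-- ▼ part R184A/H138Log
section

/-!
# Row 184 (S0276): the logarithm of a positive invertible element as a power series (helper138)
-/

set_option autoImplicit false

open Filter Topology

namespace Crest.Agent.R184A.H138

/-- the partial sums of the logarithm -/
noncomputable def logSum {A : Type*} [Ring A] [Algebra ℝ A] (c : ℝ) (Y : A) (n : ℕ) : A :=
  (Real.log c) • (1 : A) - ∑ i ∈ Finset.range n, ((1 : ℝ) / (i + 1)) • Y ^ (i + 1)

theorem cfc_log_tendsto {A : Type*} [CStarAlgebra A] (P : A) (hP : IsSelfAdjoint P) (c : ℝ)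
    (hc : 0 < c) (hq : ‖(1 : A) - c⁻¹ • P‖ < 1) :
    Tendsto (fun n : ℕ => logSum c ((1 : A) - c⁻¹ • P) n) atTop (𝓝 (cfc Real.log P)) := by
  set Y : A := (1 : A) - c⁻¹ • P with hY
  -- the polynomial
  let p : Polynomial ℝ := Polynomial.C 1 - Polynomial.C c⁻¹ * Polynomial.X
  let Q : ℕ → Polynomial ℝ := fun n => Polynomial.C (Real.log c) -
    ∑ i ∈ Finset.range n, Polynomial.C ((1 : ℝ) / (i + 1)) * p ^ (i + 1)
  have hpY : Polynomial.aeval P p = Y := by
    simp [p, hY, Algebra.smul_def]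
  have hQ : ∀ n, cfc (Q n).eval P = logSum c Y n := by
    intro n
    rw [cfc_polynomial (Q n) P hP]
    simp only [Q, logSum, map_sub, map_sum, map_mul, map_pow, hpY, Polynomial.aeval_C,
      Algebra.smul_def, mul_one]
  have hYc : Y = cfc p.eval P := by
    rw [cfc_polynomial p P hP, hpY]
  have hspec : ∀ x ∈ spectrum ℝ P, |1 - c⁻¹ * x| ≤ ‖Y‖ := by
    intro x hx
    have h1 := norm_apply_le_norm_cfc (𝕜 := ℝ) p.eval P hx (by fun_prop) hP
    rw [← hYc] at h1
    simpa [p, Real.norm_eq_abs] using h1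
  have := tendsto_cfc_fun (R := ℝ) (A := A) (a := P) (l := atTop) (F := fun n : ℕ => (Q n).eval)
    (f := Real.log) ?_ ?_
  · simpa only [hQ] using this
  · rw [Metric.tendstoUniformlyOn_iff]
    intro ε hε
    have hlim : Tendsto (fun n : ℕ => ‖Y‖ ^ (n + 1) / (1 - ‖Y‖)) atTop (𝓝 0) := by
      have h1 : Tendsto (fun n : ℕ => ‖Y‖ ^ (n + 1)) atTop (𝓝 0) :=
        (tendsto_pow_atTop_nhds_zero_of_lt_one (norm_nonneg _) hq).comp (tendsto_add_atTop_nat 1)
      simpa using h1.div_const (1 - ‖Y‖)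
    filter_upwards [hlim.eventually (gt_mem_nhds hε)] with n hn
    intro x hx
    have hx1 := hspec x hx
    have hx2 : |1 - c⁻¹ * x| < 1 := lt_of_le_of_lt hx1 hq
    have hxpos : 0 < c⁻¹ * x := by
      have := (abs_lt.1 hx2).2
      linarith
    have hxp : 0 < x := by
      have h3 := mul_pos hc hxpos
      rwa [mul_inv_cancel_left₀ hc.ne'] at h3
    have hlog : Real.log x = Real.log c + Real.log (1 - (1 - c⁻¹ * x)) := by
      rw [sub_sub_cancel, Real.log_mul (inv_ne_zero hc.ne') hxp.ne', Real.log_inv]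
      ring
    have hev : (Q n).eval x = Real.log c - ∑ i ∈ Finset.range n,
        (1 - c⁻¹ * x) ^ (i + 1) / (i + 1) := by
      simp only [Q, p, Polynomial.eval_sub, Polynomial.eval_C, Polynomial.eval_finsetSum,
        Polynomial.eval_mul, Polynomial.eval_pow, Polynomial.eval_X]
      congr 1
      refine Finset.sum_congr rfl fun i _ => ?_
      ring
    rw [Real.dist_eq, hlog, hev]
    have h4 := Real.abs_log_sub_add_sum_range_le hx2 n
    have h5 : Real.log c + Real.log (1 - (1 - c⁻¹ * x)) - (Real.log c - ∑ i ∈ Finset.range n,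
        (1 - c⁻¹ * x) ^ (i + 1) / (i + 1)) = (∑ i ∈ Finset.range n,
        (1 - c⁻¹ * x) ^ (i + 1) / (i + 1)) + Real.log (1 - (1 - c⁻¹ * x)) := by ring
    rw [h5]
    refine lt_of_le_of_lt h4 (lt_of_le_of_lt ?_ hn)
    have hpos : 0 < 1 - ‖Y‖ := by linarith
    have h6 : 1 - ‖Y‖ ≤ 1 - |1 - c⁻¹ * x| := by linarith
    gcongr
  · exact Eventually.of_forall fun n => (Q n).continuous.continuousOn

/-- norm bound for a positive invertible element -/
theorem norm_one_sub_lt {A : Type*} [CStarAlgebra A] [Nontrivial A] (P : A) (hP : IsSelfAdjoint P)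
    (hpos : ∀ x ∈ spectrum ℝ P, 0 < x) (c : ℝ) (hc : ‖P‖ ≤ c) :
    ‖(1 : A) - c⁻¹ • P‖ < 1 := by
  have hne : (spectrum ℝ P).Nonempty := ContinuousFunctionalCalculus.spectrum_nonempty P hP
  obtain ⟨x0, hx0⟩ := hne
  have hle : ∀ x ∈ spectrum ℝ P, x ≤ ‖P‖ := fun x hx =>
    (le_abs_self x).trans (spectrum.norm_le_norm_of_mem hx)
  have hcpos : 0 < c := lt_of_lt_of_le (hpos x0 hx0) ((hle x0 hx0).trans hc)
  have h1 : (1 : A) - c⁻¹ • P = cfc (fun x : ℝ => 1 - c⁻¹ * x) P := by
    rw [cfc_sub (fun _ => (1 : ℝ)) (fun x => c⁻¹ * x) P, cfc_const_one ℝ P,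
      cfc_const_mul c⁻¹ (fun x => x) P, cfc_id' ℝ P]
  rw [h1]
  refine norm_cfc_lt one_pos fun x hx => ?_
  have h2 := hpos x hx
  have h3 := (hle x hx).trans hc
  rw [Real.norm_eq_abs, abs_lt]
  have h4 : 0 < c⁻¹ * x := by positivity
  have h5 : c⁻¹ * x ≤ 1 := by
    rw [inv_mul_le_iff₀ hcpos]
    linarith
  constructor <;> linarith

end Crest.Agent.R184A.H138
end

-- ▼ part R184A/H138Deriv
section

/-!
# Row 184 (S0276): derivative of the trace of the logarithm (helper138)
-/

set_option autoImplicit false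
set_option linter.unusedSectionVars false

open Filter Topology

namespace Crest.Agent.R184A.H138

open Crest.AlgebraR.GroupRingDet

variable {G : Type*} [Group G] {n : ℕ} {H : Type*} [NormedAddCommGroup H] [InnerProductSpace ℂ H]
  [CompleteSpace H] (b : HilbertBasis (Fin n × G) ℂ H)

section comm

variable {b}

theorem Comm.one : Comm b (1 : H →L[ℂ] H) := fun k => by rw [one_mul, mul_one]

theorem Comm.zero : Comm b (0 : H →L[ℂ] H) := fun k => by rw [zero_mul, mul_zero]

theorem Comm.add {S T : H →L[ℂ] H} (hS : Comm b S) (hT : Comm b T) : Comm b (S + T) := fun k => by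
  rw [add_mul, mul_add, hS k, hT k]

theorem Comm.sub {S T : H →L[ℂ] H} (hS : Comm b S) (hT : Comm b T) : Comm b (S - T) := fun k => by
  rw [sub_mul, mul_sub, hS k, hT k]

theorem Comm.neg {S : H →L[ℂ] H} (hS : Comm b S) : Comm b (-S) := fun k => by
  rw [neg_mul, mul_neg, hS k]

theorem Comm.mul {S T : H →L[ℂ] H} (hS : Comm b S) (hT : Comm b T) : Comm b (S * T) := fun k => by
  rw [mul_assoc, hT k, ← mul_assoc, hS k, mul_assoc]

theorem Comm.smul {S : H →L[ℂ] H} (hS : Comm b S) (c : ℂ) : Comm b (c • S) := fun k => by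
  rw [smul_mul_assoc, mul_smul_comm, hS k]

theorem Comm.smulR {S : H →L[ℂ] H} (hS : Comm b S) (c : ℝ) : Comm b (c • S) := fun k => by
  rw [smul_mul_assoc, mul_smul_comm, hS k]

theorem Comm.pow {S : H →L[ℂ] H} (hS : Comm b S) (m : ℕ) : Comm b (S ^ m) := by
  induction m with
  | zero => simpa using Comm.one
  | succ m ih => rw [pow_succ]; exact ih.mul hS

theorem Comm.sum {ι : Type*} (s : Finset ι) {S : ι → (H →L[ℂ] H)} (hS : ∀ i ∈ s, Comm b (S i)) :
    Comm b (∑ i ∈ s, S i) := fun k => by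
  rw [Finset.sum_mul, Finset.mul_sum]
  exact Finset.sum_congr rfl fun i hi => hS i hi k

theorem rt_star (k : G) : star (rt b k) = rt b k⁻¹ := by
  rw [ContinuousLinearMap.star_eq_adjoint]
  symm
  rw [ContinuousLinearMap.eq_adjoint_iff]
  intro x y
  have h1 : rt b k (rt b k⁻¹ x) = x := by
    have h2 : rt b k * rt b k⁻¹ = 1 := by
      refine ext_basis b ?_
      rintro ⟨i, g⟩
      show rt b k (rt b k⁻¹ (b (i, g))) = b (i, g)
      rw [rt_apply, rt_apply, inv_mul_cancel_right]
    exact congrArg (fun T : H →L[ℂ] H => T x) h2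
  conv_rhs => rw [← h1]
  rw [rt_inner]

theorem Comm.star {S : H →L[ℂ] H} (hS : Comm b S) : Comm b (star S) := fun k => by
  have h1 := congrArg Star.star (hS k⁻¹)
  rw [star_mul, star_mul, rt_star, inv_inv] at h1
  exact h1.symm

theorem Comm.inv {S Q : H →L[ℂ] H} (hS : Comm b S) (h1 : Q * S = 1) (h2 : S * Q = 1) :
    Comm b Q := fun k => by
  calc Q * rt b k = Q * (rt b k * (S * Q)) := by rw [h2, mul_one]
    _ = Q * (rt b k * S) * Q := by simp only [mul_assoc]
    _ = Q * (S * rt b k) * Q := by rw [hS k]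
    _ = (Q * S) * rt b k * Q := by simp only [mul_assoc]
    _ = rt b k * Q := by rw [h1, one_mul]

end comm

/-- the trace as a continuous linear map -/
noncomputable def trL : (H →L[ℂ] H) →L[ℂ] ℂ :=
  ∑ i : Fin n, (innerSL ℂ (b (i, 1))).comp (ContinuousLinearMap.apply ℂ H (b (i, 1)))

theorem trL_apply (S : H →L[ℂ] H) : trL b S = trC b S := by
  unfold trL trC
  rw [sum_apply]
  rfl

theorem trL_smulR (c : ℝ) (S : H →L[ℂ] H) : trL b (c • S) = c • trL b S := by
  have h : (c • S : H →L[ℂ] H) = (c : ℂ) • S := by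
    ext x; simp
  rw [h, map_smul]
  simp

theorem trL_mul_comm {S T : H →L[ℂ] H} (hS : Comm b S) (hT : Comm b T) :
    trL b (S * T) = trL b (T * S) := by
  rw [trL_apply, trL_apply, trC_mul_comm b hS hT]

/-- trace of the derivative of a power -/
theorem pow_deriv {Y : ℝ → (H →L[ℂ] H)} {Y' : H →L[ℂ] H} {t : ℝ} (hY : HasDerivAt Y Y' t)
    (hC : Comm b (Y t)) (hC' : Comm b Y') (k : ℕ) :
    ∃ D : H →L[ℂ] H, HasDerivAt (fun s => Y s ^ (k + 1)) D t ∧ Comm b D ∧
      ∀ Z, Comm b Z → Commute Z (Y t) → trL b (D * Z) = (k + 1) * trL b (Y t ^ k * Z * Y') := by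
  induction k with
  | zero =>
    refine ⟨Y', by simpa using hY, hC', fun Z hZ hZY => ?_⟩
    rw [trL_mul_comm b hC' hZ]
    simp
  | succ k ih =>
    obtain ⟨D, hD, hDC, hDt⟩ := ih
    refine ⟨D * Y t + Y t ^ (k + 1) * Y', ?_, (hDC.mul hC).add ((hC.pow _).mul hC'), ?_⟩
    · have e : (fun s => Y s ^ (k + 1 + 1)) = (fun s => Y s ^ (k + 1)) * Y := by
        funext s
        rw [pow_succ _ (k + 1)]
        rfl
      rw [e]
      exact hD.mul hY
    · intro Z hZ hZY
      have h1 : trL b (D * (Y t * Z)) = (k + 1) * trL b (Y t ^ k * (Y t * Z) * Y') :=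
        hDt (Y t * Z) (hC.mul hZ) ((Commute.refl (Y t)).mul_left hZY)
      have h2 : trL b (Y t ^ (k + 1) * Y' * Z) = trL b (Y t ^ (k + 1) * Z * Y') := by
        have e1 : trL b (Y t ^ (k + 1) * Y' * Z) = trL b (Z * (Y t ^ (k + 1) * Y')) :=
          trL_mul_comm b ((hC.pow _).mul hC') hZ
        rw [e1, ← mul_assoc, (hZY.pow_right (k + 1)).eq]
      have h3 : Y t ^ k * (Y t * Z) * Y' = Y t ^ (k + 1) * Z * Y' := by
        rw [pow_succ]; simp only [mul_assoc]
      rw [add_mul, map_add, mul_assoc D, h1, h2, h3]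
      push_cast
      ring

theorem trL_log_eq {P : H →L[ℂ] H} (hP : IsSelfAdjoint P) (c : ℝ) (hc : 0 < c)
    (hq : ‖(1 : H →L[ℂ] H) - c⁻¹ • P‖ < 1) :
    Summable (fun k : ℕ => ((1 : ℝ) / (k + 1)) • trL b (((1 : H →L[ℂ] H) - c⁻¹ • P) ^ (k + 1))) ∧
    trL b (cfc Real.log P) = Real.log c • trL b 1 -
      ∑' k : ℕ, ((1 : ℝ) / (k + 1)) • trL b (((1 : H →L[ℂ] H) - c⁻¹ • P) ^ (k + 1)) := by
  set Y : H →L[ℂ] H := (1 : H →L[ℂ] H) - c⁻¹ • P with hY
  have hsum : Summable (fun k : ℕ => ((1 : ℝ) / (k + 1)) • trL b (Y ^ (k + 1))) := by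
    refine Summable.of_norm_bounded (g := fun k : ℕ => ‖trL b‖ * ‖Y‖ ^ (k + 1)) ?_ ?_
    · exact (((summable_geometric_of_lt_one (norm_nonneg _) hq).comp_injective
        (add_left_injective 1))).mul_left _
    · intro k
      rw [norm_smul]
      have h1 : ‖(1 : ℝ) / (k + 1)‖ ≤ 1 := by
        rw [Real.norm_of_nonneg (by positivity)]
        rw [div_le_one (by positivity)]
        linarith [Nat.cast_nonneg (α := ℝ) k]
      calc ‖(1 : ℝ) / (k + 1)‖ * ‖trL b (Y ^ (k + 1))‖
          ≤ 1 * (‖trL b‖ * ‖Y‖ ^ (k + 1)) := by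
            gcongr
            refine ((trL b).le_opNorm _).trans ?_
            gcongr
            exact norm_pow_le' Y (Nat.succ_pos k)
        _ = ‖trL b‖ * ‖Y‖ ^ (k + 1) := one_mul _
  refine ⟨hsum, ?_⟩
  have h1 := ((trL b).continuous.tendsto _).comp (cfc_log_tendsto P hP c hc hq)
  have h2 : (fun m : ℕ => trL b (logSum c Y m)) = fun m : ℕ => Real.log c • trL b 1 -
      ∑ k ∈ Finset.range m, ((1 : ℝ) / (k + 1)) • trL b (Y ^ (k + 1)) := by
    funext m
    simp only [logSum, map_sub, map_sum, trL_smulR]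
  have h3 : Tendsto (fun m : ℕ => Real.log c • trL b 1 -
      ∑ k ∈ Finset.range m, ((1 : ℝ) / (k + 1)) • trL b (Y ^ (k + 1))) atTop
      (𝓝 (Real.log c • trL b 1 - ∑' k : ℕ, ((1 : ℝ) / (k + 1)) • trL b (Y ^ (k + 1)))) :=
    tendsto_const_nhds.sub hsum.hasSum.tendsto_sum_nat
  have h4 : Tendsto (fun m : ℕ => trL b (logSum c Y m)) atTop (𝓝 (trL b (cfc Real.log P))) := h1
  rw [h2] at h4
  exact tendsto_nhds_unique h4 h3

/-- the trace of the logarithm is constant along a path with `tr (P⁻¹ P') = 0` -/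
theorem trL_log_hasDerivAt [Nontrivial H] {P P' : ℝ → (H →L[ℂ] H)}
    (hP : ∀ t, HasDerivAt P (P' t) t) (hP'c : Continuous P')
    (hsa : ∀ t, IsSelfAdjoint (P t)) (hpos : ∀ t, ∀ x ∈ spectrum ℝ (P t), 0 < x)
    (hC : ∀ t, Comm b (P t)) (hC' : ∀ t, Comm b (P' t))
    (htr : ∀ t, ∀ Q, Q * P t = 1 → P t * Q = 1 → trL b (Q * P' t) = 0) (t0 : ℝ) :
    HasDerivAt (fun t => trL b (cfc Real.log (P t))) 0 t0 := by
  have hPc : Continuous P := continuous_iff_continuousAt.2 fun t => (hP t).continuousAt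
  set c : ℝ := ‖P t0‖ + 1 with hcdef
  have hc : 0 < c := by positivity
  set Y : ℝ → (H →L[ℂ] H) := fun t => (1 : H →L[ℂ] H) - c⁻¹ • P t with hYdef
  set Y' : ℝ → (H →L[ℂ] H) := fun t => -(c⁻¹ • P' t) with hY'def
  have hYc : Continuous Y := by fun_prop
  have hY'c : Continuous Y' := by fun_prop
  have hY0 : ‖Y t0‖ < 1 := norm_one_sub_lt (P t0) (hsa t0) (hpos t0) c (by linarith)
  set q : ℝ := (1 + ‖Y t0‖) / 2 with hqdef
  have hq1 : q < 1 := by linarith
  have hq0 : 0 ≤ q := by positivity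
  have hYq : ‖Y t0‖ < q := by linarith
  set M : ℝ := ‖Y' t0‖ + 1 with hMdef
  have hM : ‖Y' t0‖ < M := by linarith
  -- a ball
  have hopen : IsOpen {t : ℝ | ‖Y t‖ < q ∧ ‖Y' t‖ < M} :=
    (isOpen_lt hYc.norm continuous_const).inter (isOpen_lt hY'c.norm continuous_const)
  obtain ⟨δ, hδ, hball⟩ := Metric.isOpen_iff.1 hopen t0 ⟨hYq, hM⟩
  have hYd : ∀ t, HasDerivAt Y (Y' t) t := fun t => by
    have := ((hP t).const_smul c⁻¹).const_sub (1 : H →L[ℂ] H)
    exact this
  have hYC : ∀ t, Comm b (Y t) := fun t => Comm.one.sub ((hC t).smulR _)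
  have hY'C : ∀ t, Comm b (Y' t) := fun t => ((hC' t).smulR _).neg
  -- termwise derivative
  have hg : ∀ (k : ℕ) (t : ℝ), HasDerivAt
      (fun s => ((1 : ℝ) / (k + 1)) • trL b (Y s ^ (k + 1))) (trL b (Y t ^ k * Y' t)) t := by
    intro k t
    obtain ⟨D, hD, -, hDt⟩ := pow_deriv b (hYd t) (hYC t) (hY'C t) k
    have h1 : HasDerivAt (fun s => trL b (Y s ^ (k + 1))) (trL b D) t := by
      have := ((trL b).restrictScalars ℝ).hasFDerivAt.comp_hasDerivAt t hD
      exact this
    have h2 := h1.const_smul ((1 : ℝ) / (k + 1))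
    have h3 := hDt 1 Comm.one (Commute.one_left _)
    rw [mul_one, mul_one] at h3
    have h4 : ((1 : ℝ) / (k + 1)) • trL b D = trL b (Y t ^ k * Y' t) := by
      rw [h3, Complex.real_smul]
      have : ((k : ℂ) + 1) ≠ 0 := by
        exact_mod_cast Nat.succ_ne_zero k
      push_cast
      field_simp
    rw [h4] at h2
    exact h2
  have hbound : ∀ (k : ℕ) (t : ℝ), t ∈ Metric.ball t0 δ →
      ‖trL b (Y t ^ k * Y' t)‖ ≤ ‖trL b‖ * (q ^ k * M) := by
    intro k t ht
    obtain ⟨h1, h2⟩ := hball ht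
    refine ((trL b).le_opNorm _).trans ?_
    gcongr
    refine (norm_mul_le _ _).trans ?_
    have h3 : ‖Y t ^ k‖ ≤ q ^ k := (norm_pow_le (Y t) k).trans (by gcongr)
    have h4 : ‖Y' t‖ ≤ M := h2.le
    gcongr
  have hu : Summable (fun k : ℕ => ‖trL b‖ * (q ^ k * M)) :=
    ((summable_geometric_of_lt_one hq0 hq1).mul_right M).mul_left _
  have hder := hasDerivAt_tsum_of_isPreconnected hu Metric.isOpen_ball
    (convex_ball t0 δ).isPreconnected (fun k t _ => hg k t) hbound
    (Metric.mem_ball_self hδ) (trL_log_eq b (hsa t0) c hc hY0).1 (Metric.mem_ball_self hδ)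
  -- the derivative is zero
  have hzero : ∑' k : ℕ, trL b (Y t0 ^ k * Y' t0) = 0 := by
    have hs : HasSum (fun k : ℕ => Y t0 ^ k) (∑' k : ℕ, Y t0 ^ k) :=
      (summable_geometric_of_norm_lt_one hY0).hasSum
    have hs2 := (trL b).hasSum (hs.mul_right (Y' t0))
    rw [hs2.tsum_eq]
    set Q0 := ∑' k : ℕ, Y t0 ^ k with hQ0
    have e1 : Q0 * (1 - Y t0) = 1 := geom_series_mul_neg (Y t0) hY0
    have e2 : (1 - Y t0) * Q0 = 1 := mul_neg_geom_series (Y t0) hY0
    have e3 : (1 : H →L[ℂ] H) - Y t0 = c⁻¹ • P t0 := by simp [hYdef]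
    rw [e3] at e1 e2
    have e4 := htr t0 (c⁻¹ • Q0) (by rw [smul_mul_assoc, ← mul_smul_comm, e1])
      (by rw [mul_smul_comm, ← smul_mul_assoc, e2])
    have e5 : Q0 * Y' t0 = -((c⁻¹ • Q0) * P' t0) := by
      simp only [hY'def, mul_neg, mul_smul_comm, smul_mul_assoc]
    rw [e5, map_neg, e4, neg_zero]
  rw [hzero] at hder
  have hconst : HasDerivAt (fun t => Real.log c • trL b (1 : H →L[ℂ] H) -
      ∑' k : ℕ, ((1 : ℝ) / (k + 1)) • trL b (Y t ^ (k + 1))) 0 t0 := by
    have := hder.const_sub (Real.log c • trL b (1 : H →L[ℂ] H))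
    rwa [neg_zero] at this
  refine hconst.congr_of_eventuallyEq ?_
  filter_upwards [Metric.ball_mem_nhds t0 hδ] with t ht
  exact (trL_log_eq b (hsa t) c hc (lt_trans (hball ht).1 hq1)).2

theorem trL_log_const [Nontrivial H] {P P' : ℝ → (H →L[ℂ] H)}
    (hP : ∀ t, HasDerivAt P (P' t) t) (hP'c : Continuous P')
    (hsa : ∀ t, IsSelfAdjoint (P t)) (hpos : ∀ t, ∀ x ∈ spectrum ℝ (P t), 0 < x)
    (hC : ∀ t, Comm b (P t)) (hC' : ∀ t, Comm b (P' t))
    (htr : ∀ t, ∀ Q, Q * P t = 1 → P t * Q = 1 → trL b (Q * P' t) = 0) (s t : ℝ) :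
    trL b (cfc Real.log (P s)) = trL b (cfc Real.log (P t)) :=
  is_const_of_deriv_eq_zero
    (fun t => (trL_log_hasDerivAt b hP hP'c hsa hpos hC hC' htr t).differentiableAt)
    (fun t => (trL_log_hasDerivAt b hP hP'c hsa hpos hC hC' htr t).deriv) s t

end Crest.Agent.R184A.H138
end

-- ▼ part R184A/H138Unip
section

/-!
# Row 184 (S0276): unipotent factors do not change `logDet` (helper138)
-/

set_option autoImplicit false
set_option linter.unusedSectionVars false

open Filter Topology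

namespace Crest.Agent.R184A.H138

open Crest.AlgebraR.GroupRingDet

variable {G : Type*} [Group G] {n : ℕ} {H : Type*} [NormedAddCommGroup H] [InnerProductSpace ℂ H]
  [CompleteSpace H] (b : HilbertBasis (Fin n × G) ℂ H)

theorem trL_star (S : H →L[ℂ] H) : trL b (star S) = star (trL b S) := by
  rw [trL_apply, trL_apply]
  unfold trC
  rw [star_sum]
  refine Finset.sum_congr rfl fun i _ => ?_
  rw [ContinuousLinearMap.star_eq_adjoint, ContinuousLinearMap.adjoint_inner_right]
  exact (inner_conj_symm _ _).symm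

theorem logDet_eq (T : H →L[ℂ] H) :
    logDet b T = (1 / 2) * (trL b (cfc Real.log (star T * T))).re := by
  unfold logDet
  rw [opTrace_eq, trL_apply]

theorem spectrum_star_mul_pos {A : Type*} [CStarAlgebra A] (T S : A) (h1 : S * T = 1)
    (h2 : T * S = 1) : ∀ x ∈ spectrum ℝ (star T * T), 0 < x := by
  intro x hx
  let _ : PartialOrder A := CStarAlgebra.spectralOrder A
  have _ : StarOrderedRing A := CStarAlgebra.spectralOrderedRing A
  have h0 : 0 ≤ x := spectrum_nonneg_of_nonneg (star_mul_self_nonneg T) hx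
  refine lt_of_le_of_ne h0 fun h => ?_
  rw [← h] at hx
  refine spectrum.zero_notMem ℝ ?_ hx
  have hT : IsUnit T := ⟨⟨T, S, h2, h1⟩, rfl⟩
  exact hT.star.mul hT

/-- unipotent factors on the left -/
theorem logDet_unip_left [Nontrivial H] {T S N : H →L[ℂ] H} (hST : S * T = 1) (hTS : T * S = 1)
    (hT : Comm b T) (hN : Comm b N) (hN2 : N * N = 0) (htr : trL b N = 0) :
    logDet b ((1 + N) * T) = logDet b T := by
  have hS : Comm b S := hT.inv hST hTS
  set U : ℝ → (H →L[ℂ] H) := fun t => (1 + t • N) * T with hU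
  set V : ℝ → (H →L[ℂ] H) := fun t => S * (1 - t • N) with hV
  have hNN : ∀ t : ℝ, (1 + t • N) * (1 - t • N) = 1 := by
    intro t
    rw [add_mul, mul_sub, mul_sub, smul_mul_smul_comm, hN2, smul_zero, mul_one, one_mul, mul_one]
    abel
  have hNN' : ∀ t : ℝ, (1 - t • N) * (1 + t • N) = 1 := by
    intro t
    rw [sub_mul, mul_add, mul_add, smul_mul_smul_comm, hN2, smul_zero, mul_one, one_mul, mul_one]
    abel
  have hUV : ∀ t, U t * V t = 1 := by
    intro t
    calc U t * V t = (1 + t • N) * (T * S) * (1 - t • N) := by simp only [hU, hV, mul_assoc]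
      _ = 1 := by rw [hTS, mul_one, hNN]
  have hVU : ∀ t, V t * U t = 1 := by
    intro t
    calc V t * U t = S * ((1 - t • N) * (1 + t • N)) * T := by simp only [hU, hV, mul_assoc]
      _ = 1 := by rw [hNN', mul_one, hST]
  have hUC : ∀ t, Comm b (U t) := fun t => (Comm.one.add (hN.smulR t)).mul hT
  have hVC : ∀ t, Comm b (V t) := fun t => (hUC t).inv (hVU t) (hUV t)
  have hUd : ∀ t, HasDerivAt U (N * T) t := by
    intro t
    have h1 : HasDerivAt (fun s : ℝ => (1 : H →L[ℂ] H) + s • N) N t := by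
      have := ((hasDerivAt_id t).smul_const N).const_add (1 : H →L[ℂ] H)
      simpa using this
    exact h1.mul_const T
  have hUs : ∀ t, HasDerivAt (fun s => star (U s)) (star (N * T)) t := fun t => (hUd t).star
  have hUc : Continuous U := continuous_iff_continuousAt.2 fun t => (hUd t).continuousAt
  have key := trL_log_const b (P := fun t => star (U t) * U t)
    (P' := fun t => star (N * T) * U t + star (U t) * (N * T))
    (fun t => (hUs t).mul (hUd t))
    (by
      have hUsc : Continuous fun t => star (U t) := continuous_star.comp hUc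
      exact (continuous_const.mul hUc).add (hUsc.mul continuous_const))
    (fun t => IsSelfAdjoint.star_mul_self (U t))
    (fun t => spectrum_star_mul_pos (U t) (V t) (hVU t) (hUV t))
    (fun t => (hUC t).star.mul (hUC t))
    (fun t => ((hN.mul hT).star.mul (hUC t)).add ((hUC t).star.mul (hN.mul hT)))
    (by
      intro t Q hQ1 hQ2
      have hsUV : star (V t) * star (U t) = 1 := by rw [← star_mul, hUV, star_one]
      have hQ : Q = V t * star (V t) := by
        calc Q = Q * ((star (U t) * U t) * (V t * star (V t))) := by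
              have : (star (U t) * U t) * (V t * star (V t)) = 1 := by
                calc (star (U t) * U t) * (V t * star (V t))
                    = star (U t) * (U t * V t) * star (V t) := by simp only [mul_assoc]
                  _ = 1 := by rw [hUV, mul_one, ← star_mul, hVU, star_one]
              rw [this, mul_one]
          _ = (Q * (star (U t) * U t)) * (V t * star (V t)) := by simp only [mul_assoc]
          _ = V t * star (V t) := by rw [hQ1, one_mul]
      have hNV : trL b ((N * T) * V t) = 0 := by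
        have : (N * T) * V t = N := by
          calc (N * T) * V t = N * (T * S) * (1 - t • N) := by simp only [hV, mul_assoc]
            _ = N := by rw [hTS, mul_one, mul_sub, mul_smul_comm, hN2, smul_zero, mul_one, sub_zero]
        rw [this, htr]
      have e1 : trL b (Q * (star (N * T) * U t)) = 0 := by
        have h1 : Q * (star (N * T) * U t) = (V t) * (star (V t) * star (N * T) * U t) := by
          rw [hQ]; simp only [mul_assoc]
        rw [h1, trL_mul_comm b (hVC t)
          (((hVC t).star.mul (hN.mul hT).star).mul (hUC t))]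
        have h2 : star (V t) * star (N * T) * U t * V t = star ((N * T) * V t) := by
          rw [mul_assoc, hUV, mul_one, star_mul (N * T) (V t)]
        rw [h2, trL_star, hNV, star_zero]
      have e2 : trL b (Q * (star (U t) * (N * T))) = 0 := by
        have h1 : Q * (star (U t) * (N * T)) = V t * (N * T) := by
          calc Q * (star (U t) * (N * T)) = V t * (star (V t) * star (U t)) * (N * T) := by
                rw [hQ]; simp only [mul_assoc]
            _ = V t * (N * T) := by rw [hsUV, mul_one]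
        rw [h1, trL_mul_comm b (hVC t) (hN.mul hT), hNV]
      rw [mul_add, map_add, e1, e2, add_zero]) 1 0
  rw [logDet_eq, logDet_eq]
  have e3 : U 1 = (1 + N) * T := by simp [hU]
  have e4 : U 0 = T := by simp [hU]
  simp only [e3, e4] at key
  rw [key]

/-- unipotent factors in the middle -/
theorem logDet_unip_mid [Nontrivial H] {T T' S S' N : H →L[ℂ] H} (hST : S * T = 1)
    (hTS : T * S = 1) (hST' : S' * T' = 1) (hTS' : T' * S' = 1)
    (hT : Comm b T) (hT' : Comm b T') (hN : Comm b N) (hN2 : N * N = 0) (htr : trL b N = 0) :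
    logDet b (T * (1 + N) * T') = logDet b (T * T') := by
  have hS : Comm b S := hT.inv hST hTS
  have e : T * (1 + N) * T' = (1 + T * N * S) * (T * T') := by
    calc T * (1 + N) * T' = T * T' + T * N * T' := by rw [mul_add, mul_one, add_mul]
      _ = T * T' + T * N * (S * T) * T' := by rw [hST, mul_one]
      _ = (1 + T * N * S) * (T * T') := by rw [add_mul, one_mul]; simp only [mul_assoc]
  rw [e]
  refine logDet_unip_left b (T := T * T') (S := S' * S) ?_ ?_ (hT.mul hT')
    ((hT.mul hN).mul hS) ?_ ?_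
  · calc S' * S * (T * T') = S' * (S * T) * T' := by simp only [mul_assoc]
      _ = 1 := by rw [hST, mul_one, hST']
  · calc T * T' * (S' * S) = T * (T' * S') * S := by simp only [mul_assoc]
      _ = 1 := by rw [hTS', mul_one, hTS]
  · calc T * N * S * (T * N * S) = T * N * (S * T) * N * S := by simp only [mul_assoc]
      _ = T * (N * N) * S := by rw [hST, mul_one]; simp only [mul_assoc]
      _ = 0 := by rw [hN2, mul_zero, zero_mul]
  · rw [trL_mul_comm b (hT.mul hN) hS, ← mul_assoc, hST, one_mul, htr]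

end Crest.Agent.R184A.H138
end

-- ▼ part R184A/FKUnip
section

/-! Row 184, T7b: `logDet` does not change under unipotent factors. (helper138) -/

set_option autoImplicit false

namespace Crest.Agent.R184A

open Crest.AlgebraR.GroupRingDet

variable {G : Type} [Group G] {n : ℕ} {H : Type} [NormedAddCommGroup H]
    [InnerProductSpace ℂ H] [CompleteSpace H]

theorem H138.Phi_comm (R : Rep G n H) (A : Matrix (Fin n) (Fin n) (MonoidAlgebra ℂ G)) :
    H138.Comm R.b (R.Φ A) := by
  intro k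
  refine H138.ext_basis R.b ?_
  rintro ⟨j, g⟩
  refine R.b.repr.injective ?_
  ext x
  obtain ⟨i, h⟩ := x
  rw [R.b.repr_apply_apply, R.b.repr_apply_apply]
  show inner ℂ (R.b (i, h)) (R.Φ A (H138.rt R.b k (R.b (j, g)))) =
    inner ℂ (R.b (i, h)) (H138.rt R.b k (R.Φ A (R.b (j, g))))
  have e : R.b (i, h) = H138.rt R.b k (R.b (i, h * k⁻¹)) := by
    rw [H138.rt_apply, inv_mul_cancel_right]
  rw [H138.rt_apply, R.coeff]
  conv_rhs => rw [e]
  rw [H138.rt_inner, R.coeff]
  simp [mul_assoc]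

theorem H138.trL_Phi (R : Rep G n H) (A : Matrix (Fin n) (Fin n) (MonoidAlgebra ℂ G)) :
    H138.trL R.b (R.Φ A) = ∑ i, (A i i).coeff 1 := by
  rw [H138.trL_apply]
  unfold H138.trC
  refine Finset.sum_congr rfl fun i _ => ?_
  rw [R.coeff, one_mul, inv_one]

theorem logDet_unip (R : Rep G n H) (N₁ D D' N₂ : Matrix (Fin n) (Fin n) (MonoidAlgebra ℂ G))
    (h1 : N₁ * N₁ = 0) (h2 : N₂ * N₂ = 0) (hD : D * D' = 1) (hD' : D' * D = 1)
    (t1 : ∑ i, (N₁ i i).coeff 1 = 0) (t2 : ∑ i, (N₂ i i).coeff 1 = 0) :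
    logDet R.b (R.Φ ((1 + N₁) * D * (1 + N₂))) = logDet R.b (R.Φ D) := by
  rcases Nat.eq_zero_or_pos n with hn | hn
  · subst hn
    unfold logDet opTrace
    simp
  have : Nontrivial H := by
    refine ⟨⟨R.b (⟨0, hn⟩, 1), 0, ?_⟩⟩
    have := R.b.orthonormal.ne_zero (⟨0, hn⟩, 1)
    exact this
  have hu : ∀ N : Matrix (Fin n) (Fin n) (MonoidAlgebra ℂ G), N * N = 0 →
      (1 - N) * (1 + N) = 1 ∧ (1 + N) * (1 - N) = 1 := by
    intro N hN
    constructor
    · rw [sub_mul, mul_add, mul_add, hN]; simp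
    · rw [add_mul, mul_sub, mul_sub, hN]; simp
  have e1 : R.Φ ((1 + N₁) * D * (1 + N₂)) = 1 * (1 + R.Φ N₁) * (R.Φ (D * (1 + N₂))) := by
    rw [mul_assoc, map_mul, map_add, map_one, one_mul]
  have e2 : R.Φ (D * (1 + N₂)) = R.Φ D * (1 + R.Φ N₂) * 1 := by
    rw [map_mul, map_add, map_one, mul_one]
  rw [e1, H138.logDet_unip_mid R.b (S := 1) (S' := R.Φ ((1 - N₂) * D')) (one_mul 1) (one_mul 1)
    ?_ ?_ H138.Comm.one (H138.Phi_comm R _) (H138.Phi_comm R _) ?_ ?_]
  · rw [one_mul, e2, H138.logDet_unip_mid R.b (S := R.Φ D') (S' := 1) ?_ ?_ (one_mul 1) (one_mul 1)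
      (H138.Phi_comm R _) H138.Comm.one (H138.Phi_comm R _) ?_ ?_, mul_one]
    · rw [← map_mul, hD', map_one]
    · rw [← map_mul, hD, map_one]
    · rw [← map_mul, h2, map_zero]
    · rw [H138.trL_Phi, t2]
  · rw [← map_mul]
    have : (1 - N₂) * D' * (D * (1 + N₂)) = 1 := by
      calc (1 - N₂) * D' * (D * (1 + N₂)) = (1 - N₂) * (D' * D) * (1 + N₂) := by
            simp only [mul_assoc]
        _ = 1 := by rw [hD', mul_one, (hu N₂ h2).1]
    rw [this, map_one]
  · rw [← map_mul]
    have : D * (1 + N₂) * ((1 - N₂) * D') = 1 := by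
      calc D * (1 + N₂) * ((1 - N₂) * D') = D * ((1 + N₂) * (1 - N₂)) * D' := by
            simp only [mul_assoc]
        _ = 1 := by rw [(hu N₂ h2).2, mul_one, hD]
    rw [this, map_one]
  · rw [← map_mul, h1, map_zero]
  · rw [H138.trL_Phi, t1]

end Crest.Agent.R184A
end

-- ▼ part R184A/FKDiag
section

/-! Row 184, T7c: `logDet` of a diagonal matrix with entries `1` on `J = 1` and `c i` on `J = -1`. -/

set_option autoImplicit false

namespace Crest.Agent.R184A

open Crest.AlgebraR.GroupRingDet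

variable {G : Type} [Group G] {n : ℕ} {H : Type} [NormedAddCommGroup H]
    [InnerProductSpace ℂ H] [CompleteSpace H]

namespace FKDiag

omit [CompleteSpace H] in
/-- operators are determined by their matrix coefficients -/
theorem op_ext {ι : Type*} (b : HilbertBasis ι ℂ H) {S T : H →L[ℂ] H}
    (h : ∀ x y, inner ℂ (b x) (S (b y)) = inner ℂ (b x) (T (b y))) : S = T := by
  have h1 : ∀ y, S (b y) = T (b y) := by
    intro y
    apply b.repr.injective
    ext x
    rw [b.repr_apply_apply, b.repr_apply_apply]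
    exact h x y
  refine ContinuousLinearMap.ext_on (s := Set.range b) ?_ ?_
  · rw [Submodule.dense_iff_topologicalClosure_eq_top]
    exact b.dense_span
  · rintro _ ⟨y, rfl⟩
    exact h1 y

/-- `(u, v) ↦ u (1 + J) / 2 + v (1 - J) / 2` -/
noncomputable def pairHom (J : G) (hJ2 : J * J = 1) : ℝ × ℝ →+* MonoidAlgebra ℂ G where
  toFun x := MonoidAlgebra.single (1 : G) (((x.1 + x.2) / 2 : ℝ) : ℂ) +
    MonoidAlgebra.single J (((x.1 - x.2) / 2 : ℝ) : ℂ)
  map_one' := by
    simp [MonoidAlgebra.one_def]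
  map_mul' := by
    intro x y
    simp only [mul_add, add_mul, MonoidAlgebra.single_mul_single, one_mul, mul_one, hJ2,
      Prod.fst_mul, Prod.snd_mul]
    have e1 : (((x.1 * y.1 + x.2 * y.2) / 2 : ℝ) : ℂ) =
        (((x.1 + x.2) / 2 : ℝ) : ℂ) * (((y.1 + y.2) / 2 : ℝ) : ℂ) +
        (((x.1 - x.2) / 2 : ℝ) : ℂ) * (((y.1 - y.2) / 2 : ℝ) : ℂ) := by
      push_cast; ring
    have e2 : (((x.1 * y.1 - x.2 * y.2) / 2 : ℝ) : ℂ) =
        (((x.1 + x.2) / 2 : ℝ) : ℂ) * (((y.1 - y.2) / 2 : ℝ) : ℂ) +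
        (((x.1 - x.2) / 2 : ℝ) : ℂ) * (((y.1 + y.2) / 2 : ℝ) : ℂ) := by
      push_cast; ring
    rw [e1, e2, MonoidAlgebra.single_add, MonoidAlgebra.single_add]
    abel
  map_zero' := by simp
  map_add' := by
    intro x y
    have e1 : (((x.1 + y.1 + (x.2 + y.2)) / 2 : ℝ) : ℂ) =
        (((x.1 + x.2) / 2 : ℝ) : ℂ) + (((y.1 + y.2) / 2 : ℝ) : ℂ) := by
      push_cast; ring
    have e2 : (((x.1 + y.1 - (x.2 + y.2)) / 2 : ℝ) : ℂ) =
        (((x.1 - x.2) / 2 : ℝ) : ℂ) + (((y.1 - y.2) / 2 : ℝ) : ℂ) := by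
      push_cast; ring
    simp only [Prod.fst_add, Prod.snd_add]
    rw [e1, e2, MonoidAlgebra.single_add, MonoidAlgebra.single_add]
    abel

/-- the `ℝ`-algebra of diagonal operators -/
noncomputable def psi (R : Rep G n H) (J : G) (hJ2 : J * J = 1) :
    (Fin n → ℝ × ℝ) →+* (H →L[ℂ] H) :=
  R.Φ.comp ((Matrix.diagonalRingHom (Fin n) (MonoidAlgebra ℂ G)).comp
    ((pairHom J hJ2).compLeft (Fin n)))

theorem psi_apply (R : Rep G n H) (J : G) (hJ2 : J * J = 1) (x : Fin n → ℝ × ℝ) :
    psi R J hJ2 x = R.Φ (Matrix.diagonal fun i => pairHom J hJ2 (x i)) := rfl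

theorem psi_coeff (R : Rep G n H) (J : G) (hJ2 : J * J = 1) (x : Fin n → ℝ × ℝ) (i j : Fin n)
    (g h : G) : inner ℂ (R.b (i, h)) (psi R J hJ2 x (R.b (j, g))) =
      if i = j then (pairHom J hJ2 (x i)).coeff (h * g⁻¹) else 0 := by
  rw [psi_apply, R.coeff]
  by_cases hij : i = j
  · subst hij; simp
  · rw [Matrix.diagonal_apply_ne _ hij]; simp [hij]

theorem psi_algebraMap (R : Rep G n H) (J : G) (hJ2 : J * J = 1) (r : ℝ) :
    psi R J hJ2 (algebraMap ℝ (Fin n → ℝ × ℝ) r) = algebraMap ℝ (H →L[ℂ] H) r := by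
  classical
  apply op_ext R.b
  rintro ⟨i, h⟩ ⟨j, g⟩
  rw [psi_coeff, Algebra.algebraMap_eq_smul_one, Algebra.algebraMap_eq_smul_one,
    smul_apply, one_apply_eq_self]
  have hr : (r • (R.b (j, g)) : H) = (r : ℂ) • R.b (j, g) := rfl
  rw [hr, inner_smul_right, orthonormal_iff_ite.mp R.b.orthonormal]
  by_cases hij : i = j
  · subst hij
    by_cases hg : h = g
    · subst hg
      simp [pairHom]
    · have h1 : h * g⁻¹ ≠ 1 := fun e => hg (by rw [← mul_inv_eq_one]; exact e)
      simp [pairHom, hg, Ne.symm h1]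
  · simp [hij]

/-- `psi` as an algebra homomorphism -/
noncomputable def psiA (R : Rep G n H) (J : G) (hJ2 : J * J = 1) :
    (Fin n → ℝ × ℝ) →ₐ[ℝ] (H →L[ℂ] H) :=
  { psi R J hJ2 with commutes' := psi_algebraMap R J hJ2 }

theorem psi_star (R : Rep G n H) (J : G) (hJ2 : J * J = 1) (x : Fin n → ℝ × ℝ) :
    star (psi R J hJ2 x) = psi R J hJ2 x := by
  apply op_ext R.b
  rintro ⟨i, h⟩ ⟨j, g⟩
  rw [ContinuousLinearMap.star_eq_adjoint, ContinuousLinearMap.adjoint_inner_right,
    ← inner_conj_symm, psi_coeff, psi_coeff]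
  have hJ' : J⁻¹ = J := inv_eq_of_mul_eq_one_left hJ2
  by_cases hij : i = j
  · subst hij
    have e1 : (1 : G) = g * h⁻¹ ↔ (1 : G) = h * g⁻¹ := by
      constructor
      · intro e; rw [← inv_inj] at e; simpa using e
      · intro e; rw [← inv_inj] at e; simpa using e
    have e2 : J = g * h⁻¹ ↔ J = h * g⁻¹ := by
      constructor
      · intro e; rw [← inv_inj, hJ'] at e; simpa using e
      · intro e; rw [← inv_inj, hJ'] at e; simpa using e
    classical
    simp only [if_true, pairHom, RingHom.coe_mk, MonoidHom.coe_mk, OneHom.coe_mk,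
      MonoidAlgebra.coeff_add, MonoidAlgebra.coeff_single, Finsupp.add_apply, map_add]
    rw [Finsupp.single_apply, Finsupp.single_apply, Finsupp.single_apply, Finsupp.single_apply]
    simp only [e1, e2]
    congr 1 <;> split_ifs <;> first | exact Complex.conj_ofReal _ | simp
  · simp [hij, Ne.symm hij]

end FKDiag

theorem logDet_diag (R : Rep G n H) (J : G) (hJ : J ≠ 1) (hJ2 : J * J = 1) (c : Fin n → ℝ)
    (hc : ∀ i, 0 < c i) :
    logDet R.b (R.Φ (Matrix.diagonal fun i =>
      MonoidAlgebra.single (1 : G) (((c i + 1) / 2 : ℝ) : ℂ) -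
        MonoidAlgebra.single J (((c i - 1) / 2 : ℝ) : ℂ))) =
      (1 / 2) * ∑ i, Real.log (c i) := by
  classical
  have h0 : R.Φ (Matrix.diagonal fun i =>
      MonoidAlgebra.single (1 : G) (((c i + 1) / 2 : ℝ) : ℂ) -
        MonoidAlgebra.single J (((c i - 1) / 2 : ℝ) : ℂ)) =
      FKDiag.psi R J hJ2 (fun i => (1, c i)) := by
    rw [FKDiag.psi_apply]
    congr 1
    congr 1
    funext i
    simp only [FKDiag.pairHom, RingHom.coe_mk, MonoidHom.coe_mk, OneHom.coe_mk]
    have e1 : ((1 + c i) / 2 : ℝ) = (c i + 1) / 2 := by ring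
    have e2 : ((1 - c i) / 2 : ℝ) = - ((c i - 1) / 2) := by ring
    rw [e1, e2, Complex.ofReal_neg, MonoidAlgebra.single_neg, sub_eq_add_neg]
  rw [h0, logDet, FKDiag.psi_star, ← map_mul]
  set x : Fin n → ℝ × ℝ := fun i => (1, c i ^ 2) with hx
  have hxx : ((fun i => (1, c i)) * (fun i => (1, c i)) : Fin n → ℝ × ℝ) = x := by
    funext i
    simp [hx, pow_two]
  rw [hxx]
  set S : Finset ℝ := insert 1 (Finset.univ.image fun i => c i ^ 2) with hS
  set P : Polynomial ℝ := Lagrange.interpolate S id Real.log with hP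
  have hPS : ∀ s ∈ S, P.eval s = Real.log s := by
    intro s hs
    exact Lagrange.eval_interpolate_at_node (v := id) Real.log (Set.injOn_id _) hs
  have haeval : ∀ Q : Polynomial ℝ, Polynomial.aeval x Q =
      fun i => (Q.eval 1, Q.eval (c i ^ 2)) := by
    intro Q
    funext i
    have h1 : (Polynomial.aeval x Q) i = Polynomial.aeval (x i) Q := by
      have := Polynomial.aeval_algHom_apply (Pi.evalAlgHom ℝ (fun _ : Fin n => ℝ × ℝ) i) x Q
      exact this.symm
    rw [h1]
    ext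
    · have := Polynomial.aeval_algHom_apply (AlgHom.fst ℝ ℝ ℝ) (x i) Q
      simp only [AlgHom.fst_apply] at this
      rw [← this]
      simp [hx, Polynomial.aeval_def, Polynomial.eval₂_eq_eval_map]
    · have := Polynomial.aeval_algHom_apply (AlgHom.snd ℝ ℝ ℝ) (x i) Q
      simp only [AlgHom.snd_apply] at this
      rw [← this]
      simp [hx, Polynomial.aeval_def, Polynomial.eval₂_eq_eval_map]
  have hpsi : ∀ Q : Polynomial ℝ, Polynomial.aeval (FKDiag.psi R J hJ2 x) Q =
      FKDiag.psi R J hJ2 (fun i => (Q.eval 1, Q.eval (c i ^ 2))) := by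
    intro Q
    rw [← haeval Q]
    exact Polynomial.aeval_algHom_apply (FKDiag.psiA R J hJ2) x Q
  have hsa : IsSelfAdjoint (FKDiag.psi R J hJ2 x) := FKDiag.psi_star R J hJ2 x
  have hspec : ∀ s ∈ spectrum ℝ (FKDiag.psi R J hJ2 x), s ∈ S := by
    intro s hs
    set Q : Polynomial ℝ := ∏ t ∈ S, (Polynomial.X - Polynomial.C t) with hQ
    have hQev : ∀ t ∈ S, Q.eval t = 0 := by
      intro t ht
      rw [hQ, Polynomial.eval_prod]
      exact Finset.prod_eq_zero ht (by simp)
    have hQ0 : Polynomial.aeval (FKDiag.psi R J hJ2 x) Q = 0 := by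
      rw [hpsi, hQev 1 (by simp [hS])]
      have : (fun i => ((0 : ℝ), Q.eval (c i ^ 2))) = (0 : Fin n → ℝ × ℝ) := by
        funext i
        rw [hQev (c i ^ 2) (by simp [hS])]
        rfl
      rw [this, map_zero]
    have h2 : Q.eval s ∈ spectrum ℝ (Polynomial.aeval (FKDiag.psi R J hJ2 x) Q) :=
      spectrum.subset_polynomial_aeval _ Q ⟨s, hs, rfl⟩
    rw [hQ0] at h2
    have h3 : Q.eval s = 0 := by
      by_contra hne
      apply h2
      change IsUnit (algebraMap ℝ (H →L[ℂ] H) (Q.eval s) - 0)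
      rw [sub_zero]
      exact (isUnit_iff_ne_zero.mpr hne).map (algebraMap ℝ (H →L[ℂ] H))
    rw [hQ, Polynomial.eval_prod, Finset.prod_eq_zero_iff] at h3
    obtain ⟨t, ht, h4⟩ := h3
    simp only [Polynomial.eval_sub, Polynomial.eval_X, Polynomial.eval_C] at h4
    rw [sub_eq_zero.mp h4]
    exact ht
  have hcfc : cfc Real.log (FKDiag.psi R J hJ2 x) =
      FKDiag.psi R J hJ2 (fun i => (0, 2 * Real.log (c i))) := by
    have e1 : cfc Real.log (FKDiag.psi R J hJ2 x) = cfc P.eval (FKDiag.psi R J hJ2 x) := by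
      apply cfc_congr
      intro s hs
      exact (hPS s (hspec s hs)).symm
    rw [e1, cfc_polynomial P _ hsa, hpsi]
    congr 1
    funext i
    rw [hPS 1 (by simp [hS]), hPS (c i ^ 2) (by simp [hS]), Real.log_one, Real.log_pow]
    simp
  rw [hcfc, opTrace]
  congr 1
  apply Finset.sum_congr rfl
  intro i _
  rw [FKDiag.psi_coeff]
  simp [FKDiag.pairHom, hJ]

end Crest.Agent.R184A
end

-- ▼ part R184A/Det

/-! Row 184, T8: S0276 from the paradox.

Lift `A`, `B` to integral matrices, `s = (p+1)/2 - (p-1)/2 J`, `s' = (p+1)/2 + (p-1)/2 J`, `s s' = p`,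
`X = s' (A B - 1) / p` is integral, `A B = 1 + s X`.
`M = [[s 1_b, B], [-A, -X]] = [[1, 0], [-A s⁻¹, 1]] diag(s 1_b, s⁻¹ 1_a) [[1, s⁻¹ B], [0, 1]]`. -/

set_option autoImplicit false

namespace Crest.Agent.R184A

open Crest.AlgebraR.GroupRingDet

namespace Det

section Blocks

variable {R : Type*} [Ring R]

theorem mul_smul_central {l m n : Type*} [Fintype m] (s : R) (hs : ∀ x, s * x = x * s)
    (A : Matrix l m R) (B : Matrix m n R) : A * (s • B) = s • (A * B) := by
  ext i j
  simp only [Matrix.mul_apply, Matrix.smul_apply, smul_eq_mul, Finset.mul_sum]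
  refine Finset.sum_congr rfl fun k _ => ?_
  rw [← mul_assoc, ← hs, mul_assoc]

variable {a b : Type*} [Fintype a] [Fintype b] [DecidableEq a] [DecidableEq b]

theorem block_factor (s t : R) (hs : ∀ x, s * x = x * s) (ht : ∀ x, t * x = x * t)
    (hst : s * t = 1) (A : Matrix a b R) (B : Matrix b a R) (X : Matrix a a R)
    (h : A * B = 1 + s • X) :
    Matrix.fromBlocks (s • (1 : Matrix b b R)) B (-A) (-X) =
      (1 + Matrix.fromBlocks 0 0 (-(t • A)) 0) * Matrix.fromBlocks (s • 1) 0 0 (t • 1) *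
        (1 + Matrix.fromBlocks 0 (t • B) 0 0) := by
  have hts : t * s = 1 := by rw [ht, hst]
  rw [← Matrix.fromBlocks_one, Matrix.fromBlocks_add, Matrix.fromBlocks_add,
    Matrix.fromBlocks_multiply, Matrix.fromBlocks_multiply]
  simp only [add_zero, zero_add, Matrix.mul_zero, Matrix.one_mul, Matrix.mul_one,
    Matrix.neg_mul, mul_smul_central s hs, mul_smul_central t ht, Matrix.smul_mul, smul_smul, hst,
    hts, one_smul, h, smul_add, smul_neg, smul_zero, neg_add]
  congr 1
  rw [add_right_comm, neg_add_cancel, zero_add]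

theorem nil1 (Y : Matrix a b R) :
    (Matrix.fromBlocks 0 0 Y 0 : Matrix (b ⊕ a) (b ⊕ a) R) * Matrix.fromBlocks 0 0 Y 0 = 0 := by
  rw [Matrix.fromBlocks_multiply]
  simp

theorem nil2 (Y : Matrix b a R) :
    (Matrix.fromBlocks 0 Y 0 0 : Matrix (b ⊕ a) (b ⊕ a) R) * Matrix.fromBlocks 0 Y 0 0 = 0 := by
  rw [Matrix.fromBlocks_multiply]
  simp

theorem diag_inv (s t : R) (hs : ∀ x, s * x = x * s) (hst : s * t = 1) :
    (Matrix.fromBlocks (s • 1) 0 0 (t • 1) : Matrix (b ⊕ a) (b ⊕ a) R) *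
      Matrix.fromBlocks (t • 1) 0 0 (s • 1) = 1 := by
  have hts : t * s = 1 := by rw [← hs, hst]
  rw [Matrix.fromBlocks_multiply]
  simp [smul_smul, hst, hts]

end Blocks

theorem isUnit_one_add {S : Type*} [Ring S] (N : S) (h : N * N = 0) : IsUnit (1 + N) := by
  refine ⟨⟨1 + N, 1 - N, ?_, ?_⟩, rfl⟩
  · noncomm_ring
    simp [h]
  · noncomm_ring
    simp [h]


section Lift

variable {Γ : Type} [Group Γ] (p : ℕ)

theorem red_surj (x : MonoidAlgebra (ZMod p) Γ) :
    ∃ y : MonoidAlgebra ℤ Γ, MonoidAlgebra.mapRingHom Γ (Int.castRingHom (ZMod p)) y = x :=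
  MonoidAlgebra.map_surjective (Int.castRingHom (ZMod p)).toAddMonoidHom
    (ZMod.intCast_surjective) x

theorem exists_div (x : MonoidAlgebra ℤ Γ)
    (h : MonoidAlgebra.mapRingHom Γ (Int.castRingHom (ZMod p)) x = 0) :
    ∃ y : MonoidAlgebra ℤ Γ, x = (p : ℤ) • y := by
  have hd : ∀ g, (p : ℤ) ∣ x.coeff g := by
    intro g
    have h1 := congrArg (fun z : MonoidAlgebra (ZMod p) Γ => z.coeff g) h
    simp only [MonoidAlgebra.coeff_mapRingHom] at h1
    exact (ZMod.intCast_zmod_eq_zero_iff_dvd _ _).1 h1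
  refine ⟨MonoidAlgebra.ofCoeff (x.coeff.mapRange (fun z => z / (p : ℤ)) (by simp)), ?_⟩
  ext g
  simp only [MonoidAlgebra.coeff_smul_apply, Finsupp.mapRange_apply, smul_eq_mul]
  exact (Int.mul_ediv_cancel' (hd g)).symm

theorem smul_inj (hp : p ≠ 0) (x y : MonoidAlgebra ℤ Γ) (h : (p : ℤ) • x = (p : ℤ) • y) :
    x = y := by
  ext g
  have h1 := congrArg (fun z : MonoidAlgebra ℤ Γ => z.coeff g) h
  simp only [MonoidAlgebra.coeff_smul_apply, smul_eq_mul] at h1
  exact mul_left_cancel₀ (by exact_mod_cast hp) h1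

/-- central elements `x + y J` -/
theorem central {K : Type*} [CommRing K] (J : Γ) (hJ : ∀ g, g * J = J * g) (u v : K)
    (x : MonoidAlgebra K Γ) :
    (MonoidAlgebra.single 1 u + MonoidAlgebra.single J v) * x =
      x * (MonoidAlgebra.single 1 u + MonoidAlgebra.single J v) := by
  rw [add_mul, mul_add]
  congr 1
  · exact MonoidAlgebra.single_commute (fun m => by simp [Commute, SemiconjBy])
      (fun r => Commute.all _ _) x
  · exact MonoidAlgebra.single_commute (fun m => (hJ m).symm)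
      (fun r => Commute.all _ _) x

theorem mul_uv {K : Type*} [CommRing K] (J : Γ) (hJ2 : J * J = 1) (u v u' v' : K) :
    (MonoidAlgebra.single 1 u + MonoidAlgebra.single J v) *
      (MonoidAlgebra.single 1 u' + MonoidAlgebra.single J v') =
      MonoidAlgebra.single 1 (u * u' + v * v') + MonoidAlgebra.single J (u * v' + v * u') := by
  simp only [add_mul, mul_add, MonoidAlgebra.single_mul_single, hJ2, one_mul, mul_one,
    MonoidAlgebra.single_add]
  abel

theorem exists_integral (k : ℕ) (hk : p = 2 * k + 1) (J : Γ) (hJ2 : J * J = 1)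
    (hJ : ∀ g, g * J = J * g) {a b : ℕ}
    (A : Matrix (Fin a) (Fin b) (MonoidAlgebra (ZMod p) Γ))
    (B : Matrix (Fin b) (Fin a) (MonoidAlgebra (ZMod p) Γ))
    (h : ∀ i j, ((A * B) i j - (if i = j then 1 else 0)) * (1 - MonoidAlgebra.single J 1) = 0) :
    ∃ (A' : Matrix (Fin a) (Fin b) (MonoidAlgebra ℤ Γ))
      (B' : Matrix (Fin b) (Fin a) (MonoidAlgebra ℤ Γ))
      (X : Matrix (Fin a) (Fin a) (MonoidAlgebra ℤ Γ)),
      A' * B' = 1 + (MonoidAlgebra.single (1 : Γ) ((k : ℤ) + 1) +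
        MonoidAlgebra.single J (-(k : ℤ))) • X := by
  choose A' hA' using fun i j => red_surj p (A i j)
  choose B' hB' using fun i j => red_surj p (B i j)
  have hmul : ∀ i j, MonoidAlgebra.mapRingHom Γ (Int.castRingHom (ZMod p))
      ((Matrix.of A' * Matrix.of B') i j) = (A * B) i j := by
    intro i j
    simp only [Matrix.mul_apply, map_sum, map_mul, Matrix.of_apply, hA', hB']
  set s : MonoidAlgebra ℤ Γ := MonoidAlgebra.single (1 : Γ) ((k : ℤ) + 1) +
        MonoidAlgebra.single J (-(k : ℤ)) with hs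
  set s' : MonoidAlgebra ℤ Γ := MonoidAlgebra.single (1 : Γ) ((k : ℤ) + 1) +
        MonoidAlgebra.single J (k : ℤ) with hs'
  have hss : s * s' = (p : ℤ) • 1 := by
    rw [hs, hs', mul_uv J hJ2]
    have e1 : ((k : ℤ) + 1) * (k + 1) + -k * k = p := by rw [hk]; push_cast; ring
    have e2 : ((k : ℤ) + 1) * k + -k * (k + 1) = 0 := by ring
    rw [e1, e2, MonoidAlgebra.single_zero, add_zero, MonoidAlgebra.one_def,
      MonoidAlgebra.smul_single, smul_eq_mul, mul_one]
  have hcs : ∀ x, s * x = x * s := fun x => central J hJ _ _ x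
  have hk0 : (k : ZMod p) = -((k : ZMod p) + 1) := by
    have : ((2 * k + 1 : ℕ) : ZMod p) = 0 := by rw [← hk]; exact ZMod.natCast_self p
    push_cast at this
    linear_combination this
  have hred : MonoidAlgebra.mapRingHom Γ (Int.castRingHom (ZMod p)) s' =
      (1 - MonoidAlgebra.single J 1) * MonoidAlgebra.single 1 ((k : ZMod p) + 1) := by
    rw [hs', map_add, MonoidAlgebra.mapRingHom_single, MonoidAlgebra.mapRingHom_single]
    rw [sub_mul, one_mul, MonoidAlgebra.single_mul_single, mul_one, one_mul, sub_eq_add_neg]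
    congr 1
    · simp
    · rw [← MonoidAlgebra.single_neg]
      congr 1
      simpa using hk0
  have hdiv : ∀ i j, ∃ y : MonoidAlgebra ℤ Γ,
      ((Matrix.of A' * Matrix.of B') i j - (if i = j then 1 else 0)) * s' = (p : ℤ) • y := by
    intro i j
    apply exists_div
    rw [map_mul, map_sub, hmul, hred, ← mul_assoc]
    have : MonoidAlgebra.mapRingHom Γ (Int.castRingHom (ZMod p)) (if i = j then 1 else 0) =
        if i = j then 1 else 0 := by
      split_ifs <;> simp
    rw [this, h, zero_mul]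
  choose X hX using hdiv
  refine ⟨Matrix.of A', Matrix.of B', Matrix.of X, ?_⟩
  ext1 i j
  have key : ((Matrix.of A' * Matrix.of B') i j - (if i = j then 1 else 0)) = s * X i j := by
    apply smul_inj p (by omega)
    have h1 : s * (((Matrix.of A' * Matrix.of B') i j - (if i = j then 1 else 0)) * s') =
        s * ((p : ℤ) • X i j) := by rw [hX i j]
    rw [← mul_assoc, hcs, mul_assoc, hss, mul_smul_comm, mul_one, mul_smul_comm] at h1
    exact h1
  rw [Matrix.add_apply, Matrix.one_apply, Matrix.smul_apply, smul_eq_mul, Matrix.of_apply, ← key]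
  abel

end Lift


section Main

variable {Γ : Type} [Group Γ]

/-- `s = (k + 1) - k J` -/
noncomputable def sK (K : Type) [CommRing K] (J : Γ) (k : ℕ) : MonoidAlgebra K Γ :=
  MonoidAlgebra.single (1 : Γ) ((k : K) + 1) + MonoidAlgebra.single J (-(k : K))

/-- inverse of `s` -/
noncomputable def tK (K : Type) [Field K] (J : Γ) (k : ℕ) : MonoidAlgebra K Γ :=
  MonoidAlgebra.single (1 : Γ) (((k : K) + 1) / (2 * k + 1)) +
    MonoidAlgebra.single J ((k : K) / (2 * k + 1))

theorem sK_mul_tK (K : Type) [Field K] [CharZero K] (J : Γ) (hJ2 : J * J = 1) (k : ℕ) :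
    sK K J k * tK K J k = 1 := by
  rw [sK, tK, mul_uv J hJ2]
  have h0 : (2 * (k : K) + 1) ≠ 0 := by
    have : ((2 * k + 1 : ℕ) : K) ≠ 0 := Nat.cast_ne_zero.2 (by omega)
    push_cast at this
    exact this
  have e1 : ((k : K) + 1) * ((k + 1) / (2 * k + 1)) + -k * (k / (2 * k + 1)) = 1 := by
    rw [mul_div_assoc', mul_div_assoc', ← add_div, div_eq_one_iff_eq h0]
    ring
  have e2 : ((k : K) + 1) * (k / (2 * k + 1)) + -k * ((k + 1) / (2 * k + 1)) = 0 := by
    ring
  rw [e1, e2, MonoidAlgebra.single_zero, add_zero, MonoidAlgebra.one_def]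

theorem map_sK (K : Type) [CommRing K] (J : Γ) (k : ℕ) :
    MonoidAlgebra.mapRingHom Γ (Int.castRingHom K) (sK ℤ J k) = sK K J k := by
  rw [sK, sK, map_add, MonoidAlgebra.mapRingHom_single, MonoidAlgebra.mapRingHom_single]
  simp

/-- the integral matrix -/
noncomputable def bigM (J : Γ) (k : ℕ) {a b : ℕ} (A : Matrix (Fin a) (Fin b) (MonoidAlgebra ℤ Γ))
    (B : Matrix (Fin b) (Fin a) (MonoidAlgebra ℤ Γ))
    (X : Matrix (Fin a) (Fin a) (MonoidAlgebra ℤ Γ)) :
    Matrix (Fin (b + a)) (Fin (b + a)) (MonoidAlgebra ℤ Γ) :=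
  (Matrix.fromBlocks (sK ℤ J k • (1 : Matrix (Fin b) (Fin b) (MonoidAlgebra ℤ Γ))) B (-A)
    (-X)).submatrix finSumFinEquiv.symm finSumFinEquiv.symm

/-- the three factors -/
noncomputable def facN1 (K : Type) [Field K] (J : Γ) (k : ℕ) {a b : ℕ}
    (A : Matrix (Fin a) (Fin b) (MonoidAlgebra ℤ Γ)) :
    Matrix (Fin (b + a)) (Fin (b + a)) (MonoidAlgebra K Γ) :=
  Matrix.reindexRingEquiv _ finSumFinEquiv (Matrix.fromBlocks 0 0
    (-(tK K J k • A.map (MonoidAlgebra.mapRingHom Γ (Int.castRingHom K)))) 0)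

noncomputable def facN2 (K : Type) [Field K] (J : Γ) (k : ℕ) {a b : ℕ}
    (B : Matrix (Fin b) (Fin a) (MonoidAlgebra ℤ Γ)) :
    Matrix (Fin (b + a)) (Fin (b + a)) (MonoidAlgebra K Γ) :=
  Matrix.reindexRingEquiv _ finSumFinEquiv (Matrix.fromBlocks 0
    (tK K J k • B.map (MonoidAlgebra.mapRingHom Γ (Int.castRingHom K))) 0 0)

noncomputable def facD (K : Type) [Field K] (J : Γ) (k a b : ℕ) :
    Matrix (Fin (b + a)) (Fin (b + a)) (MonoidAlgebra K Γ) :=
  Matrix.reindexRingEquiv _ finSumFinEquiv (Matrix.fromBlocks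
    (sK K J k • (1 : Matrix (Fin b) (Fin b) (MonoidAlgebra K Γ))) 0 0
    (tK K J k • (1 : Matrix (Fin a) (Fin a) (MonoidAlgebra K Γ))))

noncomputable def facD' (K : Type) [Field K] (J : Γ) (k a b : ℕ) :
    Matrix (Fin (b + a)) (Fin (b + a)) (MonoidAlgebra K Γ) :=
  Matrix.reindexRingEquiv _ finSumFinEquiv (Matrix.fromBlocks
    (tK K J k • (1 : Matrix (Fin b) (Fin b) (MonoidAlgebra K Γ))) 0 0
    (sK K J k • (1 : Matrix (Fin a) (Fin a) (MonoidAlgebra K Γ))))

section Fac

variable (K : Type) [Field K] [CharZero K] (J : Γ) (hJ2 : J * J = 1)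
    (hJ : ∀ g, g * J = J * g) (k : ℕ) {a b : ℕ}
    (A : Matrix (Fin a) (Fin b) (MonoidAlgebra ℤ Γ))
    (B : Matrix (Fin b) (Fin a) (MonoidAlgebra ℤ Γ))
    (X : Matrix (Fin a) (Fin a) (MonoidAlgebra ℤ Γ))

include hJ2 hJ

theorem bigM_map (h : A * B = 1 + sK ℤ J k • X) :
    (bigM J k A B X).map (MonoidAlgebra.mapRingHom Γ (Int.castRingHom K)) =
      (1 + facN1 K J k A) * facD K J k a b * (1 + facN2 K J k B) := by
  set f := MonoidAlgebra.mapRingHom Γ (Int.castRingHom K) with hf
  have h' : A.map f * B.map f = 1 + sK K J k • X.map f := by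
    rw [← map_sK, ← Matrix.map_mul, h]
    ext1 i j
    simp only [Matrix.map_apply, Matrix.add_apply, Matrix.smul_apply, smul_eq_mul, map_add,
      map_mul, Matrix.one_apply]
    congr 1
    split_ifs <;> simp
  have hfac := block_factor (sK K J k) (tK K J k) (fun x => central J hJ _ _ x)
    (fun x => central J hJ _ _ x) (sK_mul_tK K J hJ2 k) (A.map f) (B.map f) (X.map f) h'
  rw [facN1, facN2, facD, ← hf, ← map_one (Matrix.reindexRingEquiv (MonoidAlgebra K Γ)
    (finSumFinEquiv (m := b) (n := a))), ← map_add, ← map_add, ← map_mul, ← map_mul, ← hfac, bigM,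
    ← Matrix.submatrix_map, Matrix.coe_reindexRingEquiv, Matrix.reindex_apply,
    Matrix.fromBlocks_map]
  congr 1
  congr 1
  · ext1 i j
    have hs : f (sK ℤ J k) = sK K J k := map_sK K J k
    rw [Matrix.map_apply, Matrix.smul_apply, Matrix.smul_apply, smul_eq_mul, smul_eq_mul,
      map_mul, Matrix.one_apply, Matrix.one_apply, hs]
    split_ifs <;> simp
  · ext1 i j
    simp
  · ext1 i j
    simp

omit [CharZero K] hJ2 hJ in
theorem facN1_sq : facN1 (b := b) K J k A * facN1 K J k A = 0 := by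
  rw [facN1, ← map_mul, nil1, map_zero]

omit [CharZero K] hJ2 hJ in
theorem facN2_sq : facN2 (a := a) K J k B * facN2 K J k B = 0 := by
  rw [facN2, ← map_mul, nil2, map_zero]

theorem facD_mul : facD K J k a b * facD' K J k a b = 1 := by
  rw [facD, facD', ← map_mul, diag_inv (sK K J k) (tK K J k) (fun x => central J hJ _ _ x)
    (sK_mul_tK K J hJ2 k), map_one]

theorem facD_mul' : facD' K J k a b * facD K J k a b = 1 := by
  have h : tK K J k * sK K J k = 1 := by
    rw [show tK K J k * sK K J k = sK K J k * tK K J k from central J hJ _ _ _]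
    exact sK_mul_tK K J hJ2 k
  rw [facD, facD', ← map_mul, diag_inv (tK K J k) (sK K J k) (fun x => central J hJ _ _ x) h, map_one]

theorem isUnit_bigM (h : A * B = 1 + sK ℤ J k • X) :
    IsUnit ((bigM J k A B X).map (MonoidAlgebra.mapRingHom Γ (Int.castRingHom K))) := by
  rw [bigM_map K J hJ2 hJ k A B X h]
  exact ((isUnit_one_add _ (facN1_sq K J k A)).mul
    ⟨⟨_, _, facD_mul K J hJ2 hJ k, facD_mul' K J hJ2 hJ k⟩, rfl⟩).mul
    (isUnit_one_add _ (facN2_sq K J k B))

omit [CharZero K] hJ2 hJ in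
theorem facN1_diag (i : Fin (b + a)) : facN1 K J k A i i = 0 := by
  rw [facN1, Matrix.coe_reindexRingEquiv, Matrix.reindex_apply, Matrix.submatrix_apply]
  rcases finSumFinEquiv.symm i with u | u <;> rfl

omit [CharZero K] hJ2 hJ in
theorem facN2_diag (i : Fin (b + a)) : facN2 K J k B i i = 0 := by
  rw [facN2, Matrix.coe_reindexRingEquiv, Matrix.reindex_apply, Matrix.submatrix_apply]
  rcases finSumFinEquiv.symm i with u | u <;> rfl

end Fac

/-- the entries -/
noncomputable def cc (p : ℝ) (a b : ℕ) (i : Fin (b + a)) : ℝ :=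
  Sum.elim (fun _ => p) (fun _ => p⁻¹) (finSumFinEquiv.symm i)

theorem facD_eq (J : Γ) (p k a b : ℕ) (hk : p = 2 * k + 1) :
    facD ℂ J k a b = Matrix.diagonal fun i =>
      MonoidAlgebra.single (1 : Γ) (((cc p a b i + 1) / 2 : ℝ) : ℂ) -
        MonoidAlgebra.single J (((cc p a b i - 1) / 2 : ℝ) : ℂ) := by
  rw [facD, Matrix.smul_one_eq_diagonal, Matrix.smul_one_eq_diagonal, Matrix.fromBlocks_diagonal,
    Matrix.coe_reindexRingEquiv, Matrix.reindex_apply, Matrix.submatrix_diagonal_equiv]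
  congr 1
  funext i
  rw [Function.comp_apply, cc]
  have h0 : (2 * (k : ℝ) + 1) ≠ 0 := by positivity
  rcases finSumFinEquiv.symm i with u | u
  · simp only [Sum.elim_inl]
    rw [sK, sub_eq_add_neg, ← MonoidAlgebra.single_neg, hk]
    congr 2
    · push_cast; ring
    · push_cast; ring
  · simp only [Sum.elim_inr]
    rw [tK, sub_eq_add_neg, ← MonoidAlgebra.single_neg, hk]
    congr 2
    · rw [show ((((2 * k + 1 : ℕ) : ℝ))⁻¹ + 1) / 2 = ((k : ℝ) + 1) / (2 * k + 1) by
        push_cast; field_simp; ring]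
      push_cast; rfl
    · rw [show ((((2 * k + 1 : ℕ) : ℝ))⁻¹ - 1) / 2 = -((k : ℝ) / (2 * k + 1)) by
        push_cast; field_simp; ring]
      push_cast; ring

theorem cc_pos (p : ℝ) (hp : 0 < p) (a b : ℕ) (i : Fin (b + a)) : 0 < cc p a b i := by
  rw [cc]
  rcases finSumFinEquiv.symm i with u | u
  · exact hp
  · exact inv_pos.2 hp

theorem sum_cc (p : ℝ) (a b : ℕ) :
    ∑ i, Real.log (cc p a b i) = ((b : ℝ) - a) * Real.log p := by
  rw [← Equiv.sum_comp finSumFinEquiv]
  simp only [cc, Equiv.symm_apply_apply, Fintype.sum_sum_type, Sum.elim_inl, Sum.elim_inr,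
    Real.log_inv, Finset.sum_const, Finset.card_univ, Fintype.card_fin, nsmul_eq_mul]
  ring

end Main


end Det

theorem S0276_of_paradox (p : ℕ) [Fact p.Prime] (hp : p ≠ 2) (Γ : Type) [Group Γ]
    (P : Paradox p Γ) :
    ∃ (G : Type) (_ : Group G) (n : ℕ) (A : Matrix (Fin n) (Fin n) (MonoidAlgebra ℤ G))
      (H : Type) (_ : NormedAddCommGroup H) (_ : InnerProductSpace ℂ H) (_ : CompleteSpace H)
      (b : HilbertBasis (Fin n × G) ℂ H) (T : H →L[ℂ] H),
      Group.FG G ∧ 1 ≤ n ∧ IsUnit (A.map (MonoidAlgebra.mapRingHom G (Int.castRingHom ℚ))) ∧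
      IsRegularRepOperator b A T ∧ logDet b T < 0 := by
  have hpp : p.Prime := Fact.out
  obtain ⟨k, hk⟩ := hpp.odd_of_ne_two hp
  obtain ⟨A, B, X, hX⟩ := Det.exists_integral p k hk P.J P.J_sq P.J_comm P.A P.B P.mul_eq
  have hX' : A * B = 1 + Det.sK ℤ P.J k • X := hX
  obtain ⟨H, i1, i2, i3, ⟨R⟩⟩ := exists_rep Γ (P.b + P.a)
  refine ⟨Γ, inferInstance, P.b + P.a, Det.bigM P.J k A B X, H, i1, i2, i3, R.b,
    R.Φ ((Det.bigM P.J k A B X).map (MonoidAlgebra.mapRingHom Γ (Int.castRingHom ℂ))), P.fg, ?_,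
    Det.isUnit_bigM ℚ P.J P.J_sq P.J_comm k A B X hX', ?_, ?_⟩
  · have := P.lt
    omega
  · intro i j g h
    rw [R.coeff, Matrix.map_apply, MonoidAlgebra.coeff_mapRingHom]
    rfl
  · rw [Det.bigM_map ℂ P.J P.J_sq P.J_comm k A B X hX',
      logDet_unip R _ _ (Det.facD' ℂ P.J k P.a P.b) _ (Det.facN1_sq ℂ P.J k A)
        (Det.facN2_sq ℂ P.J k B) (Det.facD_mul ℂ P.J P.J_sq P.J_comm k)
        (Det.facD_mul' ℂ P.J P.J_sq P.J_comm k)
        (by simp [Det.facN1_diag]) (by simp [Det.facN2_diag]),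
      Det.facD_eq P.J p k P.a P.b hk,
      logDet_diag R P.J P.J_ne P.J_sq _
        (Det.cc_pos p (by exact_mod_cast hpp.pos) P.a P.b), Det.sum_cc]
    have h1 : 0 < Real.log p := Real.log_pos (by exact_mod_cast hpp.one_lt)
    have h2 : (P.b : ℝ) < P.a := by exact_mod_cast P.lt
    nlinarith

end Crest.Agent.R184A
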