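import Crest.Agent.R184A.Defs
import Mathlib

-- ▼ part R184A/Scalars
section

/-! Row 184, T6: S0275 from the paradox.  Matrices to scalars in `K[Γ × H]`,
`H = (Q → ℤˣ) ⋊ Q`, `Q` cyclic of order `a`: `ε_i` = idempotent of the character of `Q → ℤˣ` which is the
sign on the coordinate `i`, matrix units `E_ij = ε_i c^(i-j)`. -/

set_option autoImplicit false

namespace Crest.Agent.R184A

namespace Scal

open MonoidAlgebra

/-! ### Matrices to scalars through matrix units -/

section Units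

variable {R₀ R ι : Type} [Ring R₀] [Ring R] [Fintype ι] [DecidableEq ι]

/-- the (non unital) map `M_n(R₀) → R` -/
def phi (ψ : R₀ →+* R) (E : ι → ι → R) (X : Matrix ι ι R₀) : R :=
  ∑ i, ∑ j, ψ (X i j) * E i j

theorem phi_mul (ψ : R₀ →+* R) (E : ι → ι → R)
    (hE : ∀ i j k l, E i j * E k l = if j = k then E i l else 0)
    (hc : ∀ r i j, ψ r * E i j = E i j * ψ r) (X Y : Matrix ι ι R₀) :
    phi ψ E X * phi ψ E Y = phi ψ E (X * Y) := by
  have key : ∀ i j k l, ψ (X i j) * E i j * (ψ (Y k l) * E k l) =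
      if j = k then ψ (X i j) * ψ (Y k l) * E i l else 0 := by
    intro i j k l
    rw [show ψ (X i j) * E i j * (ψ (Y k l) * E k l) =
      ψ (X i j) * (E i j * ψ (Y k l)) * E k l by noncomm_ring, ← hc,
      show ψ (X i j) * (ψ (Y k l) * E i j) * E k l =
      ψ (X i j) * ψ (Y k l) * (E i j * E k l) by noncomm_ring, hE]
    split_ifs <;> simp
  calc phi ψ E X * phi ψ E Y
      = ∑ i, ∑ j, ∑ k, ∑ l, ψ (X i j) * E i j * (ψ (Y k l) * E k l) := by
        unfold phi
        rw [Finset.sum_mul]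
        refine Finset.sum_congr rfl fun i _ => ?_
        rw [Finset.sum_mul]
        refine Finset.sum_congr rfl fun j _ => ?_
        rw [Finset.mul_sum]
        refine Finset.sum_congr rfl fun k _ => ?_
        rw [Finset.mul_sum]
    _ = ∑ i, ∑ j, ∑ l, ψ (X i j) * ψ (Y j l) * E i l := by
        refine Finset.sum_congr rfl fun i _ => ?_
        refine Finset.sum_congr rfl fun j _ => ?_
        rw [Finset.sum_comm]
        refine Finset.sum_congr rfl fun l _ => ?_
        simp only [key]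
        rw [Finset.sum_ite_eq Finset.univ j]
        simp
    _ = phi ψ E (X * Y) := by
        unfold phi
        refine Finset.sum_congr rfl fun i _ => ?_
        rw [Finset.sum_comm]
        refine Finset.sum_congr rfl fun l _ => ?_
        rw [Matrix.mul_apply, map_sum, Finset.sum_mul]
        refine Finset.sum_congr rfl fun j _ => ?_
        rw [map_mul]

theorem units_phi (ψ : R₀ →+* R) (E : ι → ι → R)
    (hE : ∀ i j k l, E i j * E k l = if j = k then E i l else 0)
    (hc : ∀ r i j, ψ r * E i j = E i j * ψ r) (X : Matrix ι ι R₀) (l : ι) :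
    E l l * phi ψ E X * E l l = ψ (X l l) * E l l := by
  unfold phi
  rw [Finset.mul_sum, Finset.sum_mul]
  rw [Finset.sum_eq_single l]
  · rw [Finset.mul_sum, Finset.sum_mul, Finset.sum_eq_single l]
    · rw [show E l l * (ψ (X l l) * E l l) * E l l = (E l l * ψ (X l l)) * (E l l * E l l) by
        noncomm_ring, ← hc, hE, if_pos rfl, mul_assoc, hE, if_pos rfl]
    · intro j _ hj
      rw [show E l l * (ψ (X l j) * E l j) * E l l = E l l * ψ (X l j) * (E l j * E l l) by
        noncomm_ring, hE, if_neg hj, mul_zero]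
    · intro h; exact absurd (Finset.mem_univ _) h
  · intro i _ hi
    rw [Finset.mul_sum, Finset.sum_mul]
    refine Finset.sum_eq_zero fun j _ => ?_
    rw [show E l l * (ψ (X i j) * E i j) * E l l = (E l l * ψ (X i j)) * E i j * E l l by
      noncomm_ring, ← hc, show ψ (X i j) * E l l * E i j * E l l =
      ψ (X i j) * (E l l * E i j) * E l l by noncomm_ring, hE, if_neg (Ne.symm hi)]
    simp
  · intro h; exact absurd (Finset.mem_univ _) h

/-- If matrices over `R₀` are not directly finite, neither is `R`. -/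
theorem not_df (ψ : R₀ →+* R) (E : ι → ι → R)
    (hE : ∀ i j k l, E i j * E k l = if j = k then E i l else 0)
    (hc : ∀ r i j, ψ r * E i j = E i j * ψ r) (X Y : Matrix ι ι R₀) (hXY : X * Y = 1) (l : ι)
    (hl : ψ ((Y * X) l l) * E l l ≠ E l l) : ∃ a b : R, a * b = 1 ∧ b * a ≠ 1 := by
  set e : R := phi ψ E 1 with he
  have h1 : ∀ Z : Matrix ι ι R₀, phi ψ E Z * e = phi ψ E Z := fun Z => by
    rw [he, phi_mul ψ E hE hc, mul_one]
  have h2 : ∀ Z : Matrix ι ι R₀, e * phi ψ E Z = phi ψ E Z := fun Z => by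
    rw [he, phi_mul ψ E hE hc, one_mul]
  have hee : e * e = e := h1 1
  have gen : ∀ Z W : Matrix ι ι R₀, (phi ψ E Z + (1 - e)) * (phi ψ E W + (1 - e)) =
      phi ψ E (Z * W) + (1 - e) := by
    intro Z W
    rw [add_mul, mul_add, mul_add, phi_mul ψ E hE hc, mul_sub, mul_one, h1, sub_self,
      sub_mul, one_mul, h2, sub_self, mul_sub, mul_one, sub_mul, one_mul, hee, sub_self]
    abel
  refine ⟨phi ψ E X + (1 - e), phi ψ E Y + (1 - e), ?_, ?_⟩
  · rw [gen, hXY, ← he]; abel
  · rw [gen]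
    intro h
    have h3 : phi ψ E (Y * X) = e := by
      have : phi ψ E (Y * X) + (1 - e) - (1 - e) = 1 - (1 - e) := by rw [h]
      rw [add_sub_cancel_right] at this
      rw [this]; abel
    apply hl
    rw [← units_phi ψ E hE hc (Y * X) l, h3, he, units_phi ψ E hE hc 1 l]
    simp

end Units

/-! ### Matrix units in the group algebra of `Γ × (ℤˣ ≀ᵣ Q)` -/

section Wreath

variable (K : Type) [Field K] (Γ Q : Type) [Group Γ] [Group Q] [Fintype Q] [DecidableEq Q]

/-- the sign of the coordinate `q`, in `K` -/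
def chi {K : Type} [Field K] {Q : Type} (f : Q → ℤˣ) (q : Q) : K := ((f q : ℤ) : K)

variable {Q} in
omit [Group Q] [Fintype Q] [DecidableEq Q] in
theorem chi_mul (f g : Q → ℤˣ) (q : Q) : (chi (f * g) q : K) = chi f q * chi g q := by
  simp [chi]

variable {Q} in
omit [Group Q] [Fintype Q] [DecidableEq Q] in
theorem chi_sq (f : Q → ℤˣ) (q : Q) : (chi f q : K) * chi f q = 1 := by
  rw [← chi_mul]
  simp [chi]

/-- the character idempotent -/
noncomputable def eps (q : Q) : MonoidAlgebra K (Γ × (ℤˣ ≀ᵣ Q)) :=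
  ∑ f : Q → ℤˣ, single ((1, ⟨f, 1⟩) : Γ × (ℤˣ ≀ᵣ Q)) (((2 : K) ^ Fintype.card Q)⁻¹ * chi f q)

theorem single_mul_eps (g : Q → ℤˣ) (c : K) (q : Q) :
    single ((1, ⟨g, 1⟩) : Γ × (ℤˣ ≀ᵣ Q)) c * eps K Γ Q q = (c * chi g q) • eps K Γ Q q := by
  unfold eps
  rw [Finset.mul_sum, Finset.smul_sum]
  refine Fintype.sum_equiv (Equiv.mulLeft g) _ _ fun f => ?_
  rw [single_mul_single, smul_single, Equiv.coe_mulLeft]
  congr 1
  · ext <;> simp
  · rw [smul_eq_mul, chi_mul]
    calc c * (((2 : K) ^ Fintype.card Q)⁻¹ * chi f q)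
        = c * (((2 : K) ^ Fintype.card Q)⁻¹ * ((chi g q * chi g q) * chi f q)) := by
          rw [chi_sq, one_mul]
      _ = _ := by ring

omit [Group Q] in
theorem sum_chi (h2 : (2 : K) ≠ 0) (q q' : Q) :
    ∑ f : Q → ℤˣ, (chi f q : K) * chi f q' = if q = q' then (2 : K) ^ Fintype.card Q else 0 := by
  split_ifs with h
  · subst h
    simp only [chi_sq]
    simp
  · have hS : ∑ f : Q → ℤˣ, (chi f q : K) * chi f q' = -∑ f : Q → ℤˣ, (chi f q : K) * chi f q' := by
      rw [← Finset.sum_neg_distrib]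
      refine Fintype.sum_equiv (Equiv.mulLeft (Pi.mulSingle q (-1 : ℤˣ))) _ _ fun f => ?_
      rw [Equiv.coe_mulLeft, chi_mul, chi_mul]
      simp [chi, Pi.mulSingle, Function.update, Ne.symm h]
    have : (2 : K) * ∑ f : Q → ℤˣ, (chi f q : K) * chi f q' = 0 := by
      rw [two_mul]; nth_rewrite 2 [hS]; exact add_neg_cancel _
    exact (mul_eq_zero.1 this).resolve_left h2

theorem eps_mul_eps (h2 : (2 : K) ≠ 0) (q q' : Q) :
    eps K Γ Q q * eps K Γ Q q' = if q = q' then eps K Γ Q q' else 0 := by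
  have h : eps K Γ Q q * eps K Γ Q q' =
      (∑ f : Q → ℤˣ, (((2 : K) ^ Fintype.card Q)⁻¹ * ((chi f q : K) * chi f q'))) •
        eps K Γ Q q' := by
    rw [Finset.sum_smul]
    conv_lhs => rw [eps]
    rw [Finset.sum_mul]
    refine Finset.sum_congr rfl fun f _ => ?_
    rw [single_mul_eps, mul_assoc]
  rw [h, ← Finset.mul_sum, sum_chi K Q h2]
  split_ifs with h'
  · rw [inv_mul_cancel₀ (pow_ne_zero _ h2), one_smul]
  · simp

/-- the shift -/
noncomputable def sh (s : Q) : MonoidAlgebra K (Γ × (ℤˣ ≀ᵣ Q)) :=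
  single ((1, RegularWreathProduct.inl s) : Γ × (ℤˣ ≀ᵣ Q)) 1

omit [Fintype Q] [DecidableEq Q] in
theorem sh_mul (s t : Q) : sh K Γ Q s * sh K Γ Q t = sh K Γ Q (s * t) := by
  simp [sh, single_mul_single, map_mul]

theorem sh_mul_eps (s q : Q) : sh K Γ Q s * eps K Γ Q q = eps K Γ Q (s * q) * sh K Γ Q s := by
  unfold eps sh
  rw [Finset.mul_sum, Finset.sum_mul]
  refine Fintype.sum_equiv (Equiv.arrowCongr (Equiv.mulLeft s) (Equiv.refl _)) _ _ fun f => ?_
  rw [single_mul_single, single_mul_single]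
  congr 1
  · ext <;> simp [Equiv.arrowCongr]
  · simp [chi, Equiv.arrowCongr]

/-- the matrix units -/
noncomputable def EE (x y : Q) : MonoidAlgebra K (Γ × (ℤˣ ≀ᵣ Q)) :=
  sh K Γ Q (x * y⁻¹) * eps K Γ Q y

theorem EE_mul (h2 : (2 : K) ≠ 0) (x y z w : Q) :
    EE K Γ Q x y * EE K Γ Q z w = if y = z then EE K Γ Q x w else 0 := by
  have h1 : eps K Γ Q y * sh K Γ Q (z * w⁻¹) =
      sh K Γ Q (z * w⁻¹) * eps K Γ Q ((z * w⁻¹)⁻¹ * y) := by
    rw [sh_mul_eps]; congr 2; group
  unfold EE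
  rw [show sh K Γ Q (x * y⁻¹) * eps K Γ Q y * (sh K Γ Q (z * w⁻¹) * eps K Γ Q w) =
    sh K Γ Q (x * y⁻¹) * (eps K Γ Q y * sh K Γ Q (z * w⁻¹)) * eps K Γ Q w by noncomm_ring, h1,
    show sh K Γ Q (x * y⁻¹) * (sh K Γ Q (z * w⁻¹) * eps K Γ Q ((z * w⁻¹)⁻¹ * y)) * eps K Γ Q w =
    (sh K Γ Q (x * y⁻¹) * sh K Γ Q (z * w⁻¹)) * (eps K Γ Q ((z * w⁻¹)⁻¹ * y) * eps K Γ Q w) by
      noncomm_ring, sh_mul, eps_mul_eps K Γ Q h2]
  by_cases h : y = z
  · subst h
    rw [if_pos rfl, if_pos (by group)]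
    congr 2
    group
  · rw [if_neg h, if_neg, mul_zero]
    intro h'
    apply h
    have : z⁻¹ * y = 1 := by
      have h3 : w * (z⁻¹ * y) = w := by
        rw [← mul_assoc]
        simpa [mul_inv_rev] using h'
      exact mul_eq_left.1 h3
    exact (inv_mul_eq_one.1 this).symm

/-- the map `F_p[Γ] → K[Γ × H]` -/
noncomputable def psi {K₀ : Type} [Field K₀] [Algebra K₀ K] :
    MonoidAlgebra K₀ Γ →+* MonoidAlgebra K (Γ × (ℤˣ ≀ᵣ Q)) :=
  (mapDomainRingHom K (MonoidHom.inl Γ (ℤˣ ≀ᵣ Q))).comp (mapRingHom Γ (algebraMap K₀ K))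

omit [Fintype Q] [DecidableEq Q] in
theorem psi_single {K₀ : Type} [Field K₀] [Algebra K₀ K] (g : Γ) (c : K₀) :
    psi K Γ Q (single g c) = single ((g, 1) : Γ × (ℤˣ ≀ᵣ Q)) (algebraMap K₀ K c) := by
  simp only [psi, RingHom.comp_apply, mapRingHom_single]
  exact mapDomain_single

omit [Fintype Q] [DecidableEq Q] in
theorem psi_comm {K₀ : Type} [Field K₀] [Algebra K₀ K] (r : MonoidAlgebra K₀ Γ)
    (h : ℤˣ ≀ᵣ Q) (c : K) :
    psi K Γ Q r * single ((1, h) : Γ × (ℤˣ ≀ᵣ Q)) c =
      single ((1, h) : Γ × (ℤˣ ≀ᵣ Q)) c * psi K Γ Q r := by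
  induction r using MonoidAlgebra.induction_linear with
  | zero => simp
  | add a b ha hb => rw [map_add, add_mul, mul_add, ha, hb]
  | single g r =>
    rw [psi_single, single_mul_single, single_mul_single]
    congr 1
    · ext <;> simp
    · exact mul_comm _ _

theorem psi_EE {K₀ : Type} [Field K₀] [Algebra K₀ K] (r : MonoidAlgebra K₀ Γ) (x y : Q) :
    psi K Γ Q r * EE K Γ Q x y = EE K Γ Q x y * psi K Γ Q r := by
  have h1 : Commute (psi K Γ Q r) (sh K Γ Q (x * y⁻¹)) := psi_comm K Γ Q r _ _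
  have h2 : Commute (psi K Γ Q r) (eps K Γ Q y) := by
    unfold eps
    exact Commute.sum_right _ _ _ fun f _ => psi_comm K Γ Q r _ _
  exact (h1.mul_right h2)

theorem EE_self (x : Q) : EE K Γ Q x x = eps K Γ Q x := by
  unfold EE sh
  rw [mul_inv_cancel, map_one]
  have : (single ((1, 1) : Γ × (ℤˣ ≀ᵣ Q)) (1 : K)) = 1 := rfl
  rw [this, one_mul]

/-- nonvanishing: `(1 - J)/2 · ε ≠ 0` -/
theorem nonzero (h2 : (2 : K) ≠ 0) {K₀ : Type} [Field K₀] [Algebra K₀ K] (J : Γ) (hJ : J ≠ 1)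
    (c : K₀) (hc : c ≠ 0) (x : Q) :
    psi K Γ Q (single 1 c - single J c) * EE K Γ Q x x ≠ 0 := by
  intro h
  rw [EE_self, map_sub, psi_single, psi_single, sub_mul] at h
  have hcoe := congrArg (fun z : MonoidAlgebra K (Γ × (ℤˣ ≀ᵣ Q)) => z.coeff (1, 1)) h
  unfold eps at hcoe
  simp only [Finset.mul_sum, single_mul_single, coeff_sub, coeff_sum, coeff_single, coeff_zero,
    Finsupp.coe_sub, Pi.sub_apply, Finsupp.coe_zero, Pi.zero_apply, Finsupp.coe_finsetSum,
    Finset.sum_apply] at hcoe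
  rw [Finset.sum_eq_single (1 : Q → ℤˣ), Finset.sum_eq_zero, sub_zero] at hcoe
  · have h1 : ((1, 1) : Γ × (ℤˣ ≀ᵣ Q)) * (1, ⟨1, 1⟩) = (1, 1) := by ext <;> simp
    rw [h1, Finsupp.single_eq_same] at hcoe
    have hc' : algebraMap K₀ K c ≠ 0 := by
      rwa [Ne, map_eq_zero]
    have h3 : ((2 : K) ^ Fintype.card Q)⁻¹ ≠ 0 := inv_ne_zero (pow_ne_zero _ h2)
    simp [chi, hc', h3] at hcoe
  · intro f _
    rw [Finsupp.single_eq_of_ne]
    intro h'
    apply hJ
    have := congrArg Prod.fst h'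
    simpa using this.symm
  · intro f _ hf
    rw [Finsupp.single_eq_of_ne]
    intro h'
    apply hf
    have := congrArg (fun z : Γ × (ℤˣ ≀ᵣ Q) => z.2.left) h'
    simpa using this.symm
  · intro h'; exact absurd (Finset.mem_univ _) h'

end Wreath

/-! ### Padding -/

section Pad

variable {R₀ : Type} [Ring R₀]

/-- `e = (1 - J)/2`: padded matrices. -/
theorem pad (e : R₀) (he : e * e = e) (hcen : ∀ r, Commute e r) {a b : ℕ} (hab : b < a)
    (A : Matrix (Fin a) (Fin b) R₀) (B : Matrix (Fin b) (Fin a) R₀)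
    (hAB : ∀ i j, e * ((A * B) i j) = if i = j then e else 0) :
    ∃ (X Y : Matrix (Fin a) (Fin a) R₀) (l : Fin a), X * Y = 1 ∧ (Y * X) l l = 1 - e := by
  set Ap : Matrix (Fin a) (Fin a) R₀ := fun i j => if h : (j : ℕ) < b then A i ⟨j, h⟩ else 0 with hAp
  set Bp : Matrix (Fin a) (Fin a) R₀ := fun i j => if h : (i : ℕ) < b then B ⟨i, h⟩ j else 0 with hBp
  have hmul : Ap * Bp = A * B := by
    ext i j
    rw [Matrix.mul_apply, Matrix.mul_apply]
    symm
    refine Finset.sum_of_injOn (Fin.castLE hab.le) ?_ ?_ ?_ ?_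
    · intro x _ y _ h; exact Fin.castLE_injective _ h
    · intro x _; simp
    · intro k _ hk
      have hk' : ¬ (k : ℕ) < b := by
        intro h
        apply hk
        exact ⟨⟨k, h⟩, by simp, by ext; simp⟩
      simp [hAp, hk']
    · intro k _
      simp [hAp, hBp]
  set S : Matrix (Fin a) (Fin a) R₀ := Matrix.scalar (Fin a) e with hS
  have hSS : S * S = S := by rw [hS, ← map_mul, he]
  have hSc : ∀ M : Matrix (Fin a) (Fin a) R₀, S * M = M * S := fun M =>
    Matrix.scalar_commute e hcen M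
  have hSAB : S * (Ap * Bp) = S := by
    rw [hmul]
    ext i j
    rw [hS, Matrix.scalar_apply, Matrix.diagonal_mul, hAB, Matrix.diagonal_apply]
  have gen : ∀ M N : Matrix (Fin a) (Fin a) R₀, (S * M + (1 - S)) * (S * N + (1 - S)) =
      S * (M * N) + (1 - S) := by
    intro M N
    have e1 : S * M * (S * N) = S * (M * N) := by
      rw [hSc M, mul_assoc, ← mul_assoc S S N, hSS, ← mul_assoc, ← hSc M, mul_assoc]
    have e2 : S * M * (1 - S) = 0 := by
      rw [hSc M, mul_sub, mul_one, mul_assoc, hSS, sub_self]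
    have e3 : (1 - S) * (S * N) = 0 := by
      rw [sub_mul, one_mul, ← mul_assoc, hSS, sub_self]
    have e4 : (1 - S) * (1 - S) = 1 - S := by
      rw [mul_sub, mul_one, sub_mul, one_mul, hSS, sub_self, sub_zero]
    rw [add_mul, mul_add, mul_add, e1, e2, e3, e4]
    abel
  refine ⟨S * Ap + (1 - S), S * Bp + (1 - S), ⟨b, hab⟩, ?_, ?_⟩
  · rw [gen, hSAB]; abel
  · rw [gen]
    have hz : (Bp * Ap) ⟨b, hab⟩ ⟨b, hab⟩ = 0 := by
      rw [Matrix.mul_apply]
      refine Finset.sum_eq_zero fun k _ => ?_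
      simp [hBp]
    rw [Matrix.add_apply, Matrix.sub_apply, hS, Matrix.scalar_apply, Matrix.diagonal_mul, hz,
      mul_zero, zero_add, Matrix.one_apply_eq, Matrix.diagonal_apply_eq]

end Pad

end Scal

open Scal MonoidAlgebra in
theorem S0275_of_paradox (p : ℕ) [Fact p.Prime] (hp : p ≠ 2) (Γ : Type) [Group Γ]
    (P : Paradox p Γ) :
    ∃ (K : Type) (_ : Field K) (G : Type) (_ : Group G),
      Nat.card K = p ^ 4 ∧ Group.FG G ∧ (∃ g : G, g ≠ 1 ∧ IsOfFinOrder g) ∧
      ∃ a b : MonoidAlgebra K G, a * b = 1 ∧ b * a ≠ 1 := by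
  classical
  -- characteristic
  have h2p : (2 : ZMod p) ≠ 0 := by
    intro h
    have h' : ((2 : ℕ) : ZMod p) = 0 := by exact_mod_cast h
    rw [ZMod.natCast_eq_zero_iff] at h'
    exact hp ((Nat.prime_dvd_prime_iff_eq (Fact.out) Nat.prime_two).1 h')
  set K := GaloisField p 4 with hK
  have h2 : (2 : K) ≠ 0 := by
    have : (2 : K) = algebraMap (ZMod p) K 2 := (map_ofNat (algebraMap (ZMod p) K) 2).symm
    rw [this, Ne, map_eq_zero]
    exact h2p
  have ha : 0 < P.a := lt_of_le_of_lt (Nat.zero_le _) P.lt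
  have : NeZero P.a := ⟨ha.ne'⟩
  obtain ⟨Q, iQ, iF, ⟨σ⟩⟩ : ∃ (Q : Type) (_ : Group Q) (_ : Fintype Q), Nonempty (Fin P.a ≃ Q) :=
    ⟨Multiplicative (ZMod P.a), inferInstance, inferInstance,
      ⟨Fintype.equivOfCardEq (by rw [Fintype.card_fin, Fintype.card_multiplicative, ZMod.card])⟩⟩
  -- the idempotent
  set e : MonoidAlgebra (ZMod p) Γ := single 1 (2 : ZMod p)⁻¹ - single P.J (2 : ZMod p)⁻¹ with he
  have he' : e = (1 - single P.J 1) * single 1 (2 : ZMod p)⁻¹ := by
    rw [sub_mul, one_mul, single_mul_single, mul_one, one_mul]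
  have hJc : ∀ g, Commute P.J g := fun g => (P.J_comm g).symm
  have hcen : ∀ r, Commute e r := by
    intro r
    rw [he]
    exact (single_commute (fun m => Commute.one_left m) (fun r' => Commute.all _ _) r).sub_left
      (single_commute hJc (fun r' => Commute.all _ _) r)
  have hhalf : (2 : ZMod p)⁻¹ * (2 : ZMod p)⁻¹ + (2 : ZMod p)⁻¹ * (2 : ZMod p)⁻¹ =
      (2 : ZMod p)⁻¹ := by
    rw [← two_mul, ← mul_assoc, mul_inv_cancel₀ h2p, one_mul]
  have hee : e * e = e := by
    rw [he, sub_mul, mul_sub, mul_sub, single_mul_single, single_mul_single, single_mul_single,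
      single_mul_single, P.J_sq, one_mul, one_mul, mul_one]
    have h1 : (single 1 ((2 : ZMod p)⁻¹ * (2 : ZMod p)⁻¹) : MonoidAlgebra (ZMod p) Γ) +
        single 1 ((2 : ZMod p)⁻¹ * (2 : ZMod p)⁻¹) = single 1 (2 : ZMod p)⁻¹ := by
      rw [← single_add, hhalf]
    have h3 : (single P.J ((2 : ZMod p)⁻¹ * (2 : ZMod p)⁻¹) : MonoidAlgebra (ZMod p) Γ) +
        single P.J ((2 : ZMod p)⁻¹ * (2 : ZMod p)⁻¹) = single P.J (2 : ZMod p)⁻¹ := by
      rw [← single_add, hhalf]
    rw [← h1, ← h3]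
    abel
  have hAB : ∀ i j, e * ((P.A * P.B) i j) = if i = j then e else 0 := by
    intro i j
    have h := P.mul_eq i j
    have h' : e * ((P.A * P.B) i j - (if i = j then 1 else 0)) = 0 := by
      rw [(hcen _).eq, he', ← mul_assoc, h, zero_mul]
    rw [mul_sub, sub_eq_zero] at h'
    rw [h']
    split_ifs <;> simp
  obtain ⟨X, Y, l, hXY, hl⟩ := pad e hee hcen P.lt P.A P.B hAB
  refine ⟨K, inferInstance, Γ × (ℤˣ ≀ᵣ Q), inferInstance, ?_, ?_, ?_, ?_⟩
  · exact GaloisField.card p 4 (by norm_num)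
  · have hΓ := P.fg
    have hH : Group.FG (ℤˣ ≀ᵣ Q) := inferInstance
    constructor
    rw [← Subgroup.top_prod_top]
    exact (hΓ.out).prod (hH.out)
  · refine ⟨(P.J, 1), ?_, ?_⟩
    · intro h
      exact P.J_ne (congrArg Prod.fst h)
    · rw [isOfFinOrder_iff_pow_eq_one]
      refine ⟨2, by norm_num, ?_⟩
      rw [pow_two]
      ext
      · simp [P.J_sq]
      · simp
      · simp
  · refine not_df (psi K Γ Q) (fun i j => EE K Γ Q (σ i) (σ j)) ?_ ?_ X Y hXY l ?_
    · intro i j k l'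
      rw [EE_mul K Γ Q h2]
      simp
    · intro r i j
      exact psi_EE K Γ Q r _ _
    · intro h
      rw [hl, map_sub, map_one, sub_mul, one_mul, sub_eq_self] at h
      exact nonzero K Γ Q h2 P.J P.J_ne _ (inv_ne_zero h2p) (σ l) h

end Crest.Agent.R184A
end

-- ▼ part R184A/End275

/-!
# Endgame of S0275 (row 184): matrix units in `K[G × H]`

Self-contained.  `H = ℤˣ ≀ᵣ Q` for a finite group `Q`, `2` invertible in `K`.
-/

set_option autoImplicit false
set_option linter.unusedSectionVars false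

open Matrix

namespace Crest.Agent.R184A

/-! ## Abstract transfer -/

section Transfer

variable {R S : Type*} [Ring R] [Ring S] {ι : Type*} [Fintype ι] [DecidableEq ι]





end Transfer

/-! ## From a central idempotent and rectangular matrices to square matrices -/

section Pad

variable {R : Type*} [Ring R]


end Pad


/-! ## Matrix units in the group algebra of a wreath product -/

section Units

variable {K : Type*} [Field K] {G Q : Type*} [Group G] [Group Q] [Fintype Q] [DecidableEq Q]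

/-- The finite group. -/
abbrev HH (Q : Type*) [Group Q] := ℤˣ ≀ᵣ Q


/-- group elements of the finite factor. -/
noncomputable def tH (K G Q : Type*) [Field K] [Group G] [Group Q] :
    HH Q →* MonoidAlgebra K (G × HH Q) :=
  (MonoidAlgebra.of K (G × HH Q)).comp (MonoidHom.inr G (HH Q))





/-- sign of a function at a point, in `K`. -/
def sg (K : Type*) [Field K] {Q : Type*} (f : Q → ℤˣ) (i : Q) : K := (((f i : ℤˣ) : ℤ) : K)




/-- unnormalised idempotent. -/
noncomputable def uu (K G : Type*) [Field K] [Group G] {Q : Type*} [Group Q] [Fintype Q]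
    [DecidableEq Q] (i : Q) : MonoidAlgebra K (G × HH Q) :=
  ∑ f : Q → ℤˣ, sg K f i • tH K G Q ⟨f, 1⟩



/-- The matrix units. -/
noncomputable def EE (K G : Type*) [Field K] [Group G] {Q : Type*} [Group Q] [Fintype Q]
    [DecidableEq Q] (i j : Q) : MonoidAlgebra K (G × HH Q) :=
  ((Fintype.card (Q → ℤˣ) : K)⁻¹) • (uu K G i * tH K G Q ⟨1, i * j⁻¹⟩)





end Units


/-! ## The transfer to one by one matrices -/

section Final

variable {K : Type} [Field K] {G : Type} [Group G]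



end Final

/-! ## The prime and the field -/

theorem minFac_factorial_sq_add_one {m : ℕ} (hm : 2 ≤ m) :
    Nat.Prime (Nat.minFac (m.factorial ^ 2 + 1)) ∧ Odd (Nat.minFac (m.factorial ^ 2 + 1)) := by
  have h0 : 0 < m.factorial := Nat.factorial_pos m
  have h1 : m.factorial ^ 2 + 1 ≠ 1 := by
    have := pow_pos h0 2
    omega
  have hp := Nat.minFac_prime h1
  refine ⟨hp, ?_⟩
  have hdvd := Nat.minFac_dvd (m.factorial ^ 2 + 1)
  have h2 : 2 ∣ m.factorial := Nat.dvd_factorial (by norm_num) hm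
  have h3 : Odd (m.factorial ^ 2 + 1) := by
    obtain ⟨t, ht⟩ := h2
    rw [ht]
    exact ⟨2 * t ^ 2, by ring⟩
  exact Odd.of_dvd_nat h3 hdvd

theorem two_le_choose : 2 ≤ Nat.choose 1200 600 := by
  have h1 : 2 ∣ Nat.centralBinom 600 := Nat.two_dvd_centralBinom_of_one_le (by norm_num)
  have h2 : 0 < Nat.centralBinom 600 := Nat.centralBinom_pos 600
  have h3 : Nat.centralBinom 600 = Nat.choose 1200 600 := Nat.centralBinom_eq_two_mul_choose 600
  rw [h3] at h1 h2
  exact Nat.le_of_dvd h2 h1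



end Crest.Agent.R184A
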