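import Crest.Agent.R184A.Par_Mg
import Crest.Agent.R199.Limit

/-! Row 184: the rank paradox exists for every odd prime. -/

set_option autoImplicit false

namespace Crest.Agent.R184A

open Crest.Agent.R199

theorem exists_paradox (p : ℕ) [Fact p.Prime] (hp : p ≠ 2) :
    ∃ (Γ : Type) (_ : Group Γ), Nonempty (Paradox p Γ) := by
  obtain ⟨Z, C, W, iZ, iW, iC, iM, ⟨Γ⟩⟩ := exists_gadSys2 p hp 150
  obtain ⟨D⟩ := exists_twData Γ
  obtain ⟨M⟩ := exists_model D.toSCData
  obtain ⟨G, iG, ⟨E⟩⟩ := exists_cext D.toSCData M D.volt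
  exact ⟨G, iG, exists_paradox_of_twData hp D G E⟩

end Crest.Agent.R184A
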