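import Mathlib
import Crest.Agent.R184A.Defs
import Crest.Agent.R199.GadgetCon
import Crest.Agent.R199.Dirs
import Crest.Agent.R199.Build1
import Crest.Agent.R199.Torsion
import Crest.Agent.R199.Words

-- ▼ part R184A/PRankP
section

/-! Row 184, T1: `p`-rank bound for the lines of `F × F^n`, any prime `p`
(adaptation of `R199/PRank.lean`, 2 replaced by a prime `ℓ`).

`F` a field with `ℓ ^ (μ * T)` elements, `n + 1 ≤ ℓ ^ μ`.  The `F_ℓ`-span of the indicator
vectors of the lines `{(u, w + u d)}` of `F × (Fin n → F)` has dimension at most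
`(ℓ ^ ((n + 1) * μ) - 1) ^ T`. -/

set_option autoImplicit false

open scoped Classical

namespace Crest.Agent.R184A.PR

section linalg

variable {ℓ : ℕ} [Fact ℓ.Prime] {P : Type*} [Fintype P] {F : Type*} [Field F]
  [Algebra (ZMod ℓ) F]

/-- If a family of `F`-valued functions is linearly independent and orthogonal to a set `S` of
`F_ℓ`-valued functions, then `dim span S + card J ≤ card P`. -/
theorem finrank_span_add_card_le {J : Type*} [Fintype J] (S : Set (P → ZMod ℓ))
    (f : J → P → F) (hf : LinearIndependent F f)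
    (h0 : ∀ j, ∀ s ∈ S, ∑ p, f j p * algebraMap (ZMod ℓ) F (s p) = 0) :
    Module.finrank (ZMod ℓ) (Submodule.span (ZMod ℓ) S) + Fintype.card J ≤ Fintype.card P := by
  classical
  set L := Submodule.span (ZMod ℓ) S with hL
  let k := Module.finrank (ZMod ℓ) L
  let b : Module.Basis (Fin k) (ZMod ℓ) L := Module.finBasis (ZMod ℓ) L
  obtain ⟨g, hg⟩ := LinearMap.exists_leftInverse_of_injective L.subtype
    (Submodule.ker_subtype L)
  -- dual vectors
  let c : Fin k → P → ZMod ℓ := fun i p => b.repr (g (Pi.single p 1)) i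
  have hc : ∀ i j : Fin k, ∑ p, c i p * (b j : P → ZMod ℓ) p = if j = i then 1 else 0 := by
    intro i j
    have h1 : (b j : P → ZMod ℓ) = ∑ p, (b j : P → ZMod ℓ) p • (Pi.single p 1 : P → ZMod ℓ) := by
      funext x
      simp [Finset.sum_apply, Pi.single_apply]
    have h2 : g (b j : P → ZMod ℓ) = b j := by
      have := LinearMap.congr_fun hg (b j)
      simpa using this
    have h3 : b.repr (g (b j : P → ZMod ℓ)) i = if j = i then 1 else 0 := by
      rw [h2]; simp [Finsupp.single_apply]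
    rw [← h3]
    conv_rhs => rw [h1]
    simp only [map_sum, map_smul, Finsupp.coe_finsetSum, Finset.sum_apply, Finsupp.smul_apply,
      smul_eq_mul, c]
    exact Finset.sum_congr rfl fun p _ => mul_comm _ _
  let Φ : (P → F) →ₗ[F] (Fin k → F) :=
    { toFun := fun φ i => ∑ p, φ p * algebraMap (ZMod ℓ) F ((b i : P → ZMod ℓ) p)
      map_add' := by
        intro x y; funext i; simp [add_mul, Finset.sum_add_distrib]
      map_smul' := by
        intro a x; funext i; simp [Finset.mul_sum, mul_assoc] }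
  have hsurj : Function.Surjective Φ := by
    intro a
    refine ⟨∑ i, a i • (fun p => algebraMap (ZMod ℓ) F (c i p)), ?_⟩
    funext j
    rw [map_sum]
    simp only [map_smul, Finset.sum_apply, Pi.smul_apply, smul_eq_mul]
    have h4 : ∀ i, Φ (fun p => algebraMap (ZMod ℓ) F (c i p)) j = if j = i then 1 else 0 := by
      intro i
      change ∑ p, algebraMap (ZMod ℓ) F (c i p) * algebraMap (ZMod ℓ) F ((b j : P → ZMod ℓ) p) = _
      simp only [← map_mul]
      rw [← map_sum, hc i j]
      split_ifs <;> simp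
    simp [h4]
  have hker : Module.finrank F (LinearMap.ker Φ) + k = Fintype.card P := by
    have := LinearMap.finrank_range_add_finrank_ker Φ
    rw [LinearMap.range_eq_top.2 hsurj, finrank_top] at this
    simp at this
    omega
  -- the family is in the kernel
  have hmem : ∀ j, f j ∈ LinearMap.ker Φ := by
    intro j
    rw [LinearMap.mem_ker]
    funext i
    change ∑ p, f j p * algebraMap (ZMod ℓ) F ((b i : P → ZMod ℓ) p) = 0
    have key : ∀ s ∈ Submodule.span (ZMod ℓ) S,
        ∑ p, f j p * algebraMap (ZMod ℓ) F (s p) = 0 := by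
      intro s hs
      induction hs using Submodule.span_induction with
      | mem x hx => exact h0 j x hx
      | zero => simp
      | add x y _ _ hx hy => simp [mul_add, Finset.sum_add_distrib, hx, hy]
      | smul a x _ hx =>
        have : ∀ p, f j p * algebraMap (ZMod ℓ) F ((a • x) p) =
            algebraMap (ZMod ℓ) F a * (f j p * algebraMap (ZMod ℓ) F (x p)) := by
          intro p; simp [mul_left_comm]
        rw [Finset.sum_congr rfl fun p _ => this p, ← Finset.mul_sum, hx, mul_zero]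
    exact key _ (b i).2
  have hcard : Fintype.card J ≤ Module.finrank F (LinearMap.ker Φ) := by
    have hli : LinearIndependent F (fun j => (⟨f j, hmem j⟩ : LinearMap.ker Φ)) := by
      apply LinearIndependent.of_comp (LinearMap.ker Φ).subtype
      exact hf
    exact hli.fintype_card_le_finrank
  have hk : k = Module.finrank (ZMod ℓ) L := rfl
  omega

end linalg

section mono

variable {ℓ : ℕ} [Fact ℓ.Prime] {F : Type} [Field F] [Fintype F] {n : ℕ}

/-- The monomial function with exponent vector `e` on `F × F^n`. -/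
def mono (e : Option (Fin n) → ℕ) (p : F × (Fin n → F)) : F :=
  p.1 ^ e none * ∏ i, p.2 i ^ e (some i)

/-- Monomial functions with exponents `< q` are linearly independent. -/
theorem linearIndependent_mono {J : Type*} [Finite J] (e : J → Option (Fin n) → ℕ)
    (he : Function.Injective e) (hq : ∀ j i, e j i < Fintype.card F) :
    LinearIndependent F (fun j => (mono (e j) : F × (Fin n → F) → F)) := by
  classical
  cases nonempty_fintype J
  rw [Fintype.linearIndependent_iff]
  intro c hc j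
  let p : MvPolynomial (Option (Fin n)) F :=
    ∑ j, MvPolynomial.monomial (Finsupp.equivFunOnFinite.symm (e j)) (c j)
  have hp : p = 0 := by
    apply MvPolynomial.eq_zero_of_eval_eq_zero (Option (Fin n)) F p
    · intro v
      have := congrFun hc (v none, fun i => v (some i))
      simp only [Finset.sum_apply, Pi.smul_apply, smul_eq_mul, Pi.zero_apply, mono] at this
      rw [← this]
      simp only [p, map_sum, MvPolynomial.eval_monomial]
      refine Finset.sum_congr rfl fun j _ => ?_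
      congr 1
      rw [Finsupp.prod_fintype _ _ (by intro i; simp)]
      simp [Fintype.prod_option]
    · apply Submodule.sum_mem
      intro j _
      rw [MvPolynomial.mem_restrictDegree]
      intro s hs i
      have hs' := MvPolynomial.support_monomial_subset hs
      rw [Finset.mem_singleton] at hs'
      subst hs'
      have := hq j i
      simp only [Finsupp.equivFunOnFinite_symm_apply_apply]
      omega
  have h2 : MvPolynomial.coeff (Finsupp.equivFunOnFinite.symm (e j)) p = c j := by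
    simp only [p, MvPolynomial.coeff_sum, MvPolynomial.coeff_monomial]
    rw [Finset.sum_eq_single j]
    · simp
    · intro b _ hb
      rw [if_neg]
      intro h
      exact hb (he (Finsupp.equivFunOnFinite.symm.injective h))
    · simp
  rw [← h2, hp]; simp

/-- The sum over `F` of a polynomial of degree `< q - 1` vanishes. -/
theorem sum_eval_eq_zero (p : Polynomial F) (hp : p.natDegree < Fintype.card F - 1) :
    ∑ u : F, p.eval u = 0 := by
  simp_rw [Polynomial.eval_eq_sum_range]
  rw [Finset.sum_comm]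
  apply Finset.sum_eq_zero
  intro i hi
  rw [Finset.mem_range] at hi
  rw [← Finset.mul_sum, FiniteField.sum_pow_lt_card_sub_one F i (by omega), mul_zero]

theorem sum_mono_line_of_small (e : Option (Fin n) → ℕ) (h : ∑ i, e i < Fintype.card F - 1)
    (w d : Fin n → F) : ∑ u : F, mono e (u, w + u • d) = 0 := by
  classical
  let p : Polynomial F := Polynomial.X ^ e none *
    ∏ i, (Polynomial.C (w i) + Polynomial.C (d i) * Polynomial.X) ^ e (some i)
  have h1 : ∀ u, mono e (u, w + u • d) = p.eval u := by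
    intro u
    simp only [mono, p, Polynomial.eval_mul, Polynomial.eval_prod, Polynomial.eval_pow,
      Polynomial.eval_X, Polynomial.eval_add, Polynomial.eval_C, Pi.add_apply, Pi.smul_apply,
      smul_eq_mul]
    congr 1
    refine Finset.prod_congr rfl fun i _ => ?_
    rw [mul_comm u]
  simp_rw [h1]
  apply sum_eval_eq_zero
  refine lt_of_le_of_lt ?_ h
  refine Polynomial.natDegree_mul_le.trans ?_
  rw [Fintype.sum_option]
  refine Nat.add_le_add (Polynomial.natDegree_X_pow_le _) ?_
  refine (Polynomial.natDegree_prod_le _ _).trans (Finset.sum_le_sum fun i _ => ?_)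
  refine Polynomial.natDegree_pow_le.trans ?_
  have : (Polynomial.C (w i) + Polynomial.C (d i) * Polynomial.X).natDegree ≤ 1 := by
    compute_degree
  calc _ ≤ e (some i) * 1 := Nat.mul_le_mul_left _ this
    _ = _ := mul_one _

theorem charP_of_card {m : ℕ} (hF : Fintype.card F = ℓ ^ m) : CharP F ℓ := by
  obtain ⟨p, hp⟩ := CharP.exists F
  have := hp
  obtain ⟨m', hpp, hm⟩ := FiniteField.card F p
  have h2 : p ∣ ℓ ^ m := by
    rw [← hF, hm]; exact dvd_pow_self p m'.pos.ne'
  have h3 : p ∣ ℓ := hpp.dvd_of_dvd_pow h2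
  have h4 : p = ℓ := (Nat.prime_dvd_prime_iff_eq hpp Fact.out).1 h3
  rw [← h4]; exact hp

theorem sum_mono_line (μ T b : ℕ) (hb : b < T) (hF : Fintype.card F = ℓ ^ (μ * T))
    (hn : n + 1 ≤ ℓ ^ μ) (e : Option (Fin n) → ℕ) (he : ∀ i, e i < ℓ ^ (μ * T))
    (hz : ∀ i, e i / ℓ ^ (μ * b) % ℓ ^ μ = 0) (w d : Fin n → F) :
    ∑ u : F, mono e (u, w + u • d) = 0 := by
  classical
  have hμ : 0 < μ := by
    rcases Nat.eq_zero_or_pos μ with h | h
    · subst h
      have := Fintype.one_lt_card (α := F)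
      simp at hF; omega
    · exact h
  have hchar : CharP F ℓ := charP_of_card hF
  have hℓ : 0 < ℓ := (Fact.out : ℓ.Prime).pos
  have hℓ2 : 2 ≤ ℓ := (Fact.out : ℓ.Prime).two_le
  obtain ⟨s', hs'⟩ : ∃ s', T = b + 1 + s' := ⟨T - (b + 1), by omega⟩
  set s := μ * s' with hs
  have hq1 : ℓ ^ (μ * (b + 1)) * ℓ ^ s = ℓ ^ (μ * T) := by
    rw [← pow_add]; congr 1; rw [hs, hs']; ring
  have hq2 : ℓ ^ (μ * b) * ℓ ^ μ = ℓ ^ (μ * (b + 1)) := by
    rw [← pow_add]; congr 1
  let e' : Option (Fin n) → ℕ := fun i => e i / ℓ ^ (μ * (b + 1)) + (e i % ℓ ^ (μ * b)) * ℓ ^ s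
  have hpow : ∀ (x : F) (i), x ^ (e i * ℓ ^ s) = x ^ e' i := by
    intro x i
    have h5 : e i = e i / ℓ ^ (μ * (b + 1)) * ℓ ^ (μ * (b + 1)) + e i % ℓ ^ (μ * b) := by
      have h6 := Nat.div_add_mod' (e i) (ℓ ^ (μ * (b + 1)))
      have h7 : e i % ℓ ^ (μ * (b + 1)) = e i % ℓ ^ (μ * b) := by
        rw [← hq2, Nat.mod_mul, hz i]; simp
      rw [h7] at h6
      exact h6.symm
    have h8 : e i * ℓ ^ s = Fintype.card F * (e i / ℓ ^ (μ * (b + 1))) +
        (e i % ℓ ^ (μ * b)) * ℓ ^ s := by
      conv_lhs => rw [h5]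
      rw [add_mul, mul_assoc, hq1, hF, mul_comm (ℓ ^ (μ * T))]
    rw [h8, pow_add, pow_mul, FiniteField.pow_card, ← pow_add]
  have hpow' : ∀ p : F × (Fin n → F), mono e p ^ ℓ ^ s = mono e' p := by
    intro p
    simp only [mono]
    rw [mul_pow, ← Finset.prod_pow, ← pow_mul, hpow]
    congr 1
    refine Finset.prod_congr rfl fun i _ => ?_
    rw [← pow_mul, hpow]
  have hfrob : (∑ u : F, mono e (u, w + u • d)) ^ ℓ ^ s = ∑ u : F, mono e' (u, w + u • d) := by
    rw [sum_pow_char_pow ℓ s]
    exact Finset.sum_congr rfl fun u _ => hpow' _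
  have hsmall : ∑ i, e' i < Fintype.card F - 1 := by
    have hb' : ∀ i, e' i + 1 ≤ ℓ ^ (μ * b) * ℓ ^ s := by
      intro i
      have hA : e i / ℓ ^ (μ * (b + 1)) < ℓ ^ s := by
        rw [Nat.div_lt_iff_lt_mul (by positivity), mul_comm, hq1]; exact he i
      have hB : e i % ℓ ^ (μ * b) + 1 ≤ ℓ ^ (μ * b) := Nat.mod_lt _ (by positivity)
      calc e' i + 1 = (e i / ℓ ^ (μ * (b + 1)) + 1) + (e i % ℓ ^ (μ * b)) * ℓ ^ s := by
            simp only [e']; ring
        _ ≤ ℓ ^ s + (e i % ℓ ^ (μ * b)) * ℓ ^ s := Nat.add_le_add_right hA _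
        _ = (e i % ℓ ^ (μ * b) + 1) * ℓ ^ s := by ring
        _ ≤ _ := Nat.mul_le_mul_right _ hB
    have hsum : ∑ i, (e' i + 1) ≤ (n + 1) * (ℓ ^ (μ * b) * ℓ ^ s) := by
      calc _ ≤ ∑ _i : Option (Fin n), ℓ ^ (μ * b) * ℓ ^ s := Finset.sum_le_sum fun i _ => hb' i
        _ = _ := by simp
    have hsum2 : ∑ i, (e' i + 1) = ∑ i, e' i + (n + 1) := by
      rw [Finset.sum_add_distrib]; simp
    have hN : ℓ ^ μ * (ℓ ^ (μ * b) * ℓ ^ s) = Fintype.card F := by
      rw [hF, ← hq1, ← hq2]; ring
    set N := ℓ ^ (μ * b) * ℓ ^ s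
    have hN1 : 1 ≤ N := Nat.succ_le_of_lt (by positivity)
    have h2μ : 2 ≤ ℓ ^ μ := by
      calc 2 ≤ ℓ ^ 1 := by simpa using hℓ2
        _ ≤ ℓ ^ μ := Nat.pow_le_pow_right hℓ hμ
    obtain ⟨N', hN'⟩ : ∃ N', N = N' + 1 := ⟨N - 1, by omega⟩
    have h9 : (n + 1) * N' ≤ ℓ ^ μ * N' := Nat.mul_le_mul_right _ hn
    have h10 : (n + 1) * N = (n + 1) * N' + (n + 1) := by rw [hN']; ring
    have h11 : ℓ ^ μ * N = ℓ ^ μ * N' + ℓ ^ μ := by rw [hN']; ring
    omega
  have h0 := sum_mono_line_of_small e' hsmall w d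
  rw [← hfrob] at h0
  exact pow_eq_zero_iff (by positivity) |>.1 h0

end mono

/-- Indicator vector of the line `{(u, w + u d)}` of `F × F^n`. -/
noncomputable def lineVec (p : ℕ) {F : Type} [Field F] {n : ℕ} (w d : Fin n → F) :
    F × (Fin n → F) → ZMod p :=
  fun x => if x.2 = w + x.1 • d then 1 else 0

section final

variable {ℓ : ℕ} [Fact ℓ.Prime] {F : Type} [Field F] [Fintype F] {n : ℕ}

theorem sum_mul_lineVec [Algebra (ZMod ℓ) F] (f : F × (Fin n → F) → F) (w d : Fin n → F) :
    ∑ p, f p * algebraMap (ZMod ℓ) F (lineVec ℓ w d p) = ∑ u, f (u, w + u • d) := by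
  rw [Fintype.sum_prod_type]
  refine Finset.sum_congr rfl fun u _ => ?_
  rw [Finset.sum_eq_single (w + u • d)]
  · simp [lineVec]
  · intro y _ hy
    simp [lineVec, hy]
  · simp

/-- The number of exponent families having no common zero block. -/
theorem card_bad (n M T : ℕ) [NeZero M] :
    Fintype.card {e : Option (Fin n) → Fin T → Fin M // ∀ b, ¬ ∀ i, e i b = 0} =
      (M ^ (n + 1) - 1) ^ T := by
  classical
  have e1 : {e : Option (Fin n) → Fin T → Fin M // ∀ b, ¬ ∀ i, e i b = 0} ≃
      (Fin T → {g : Option (Fin n) → Fin M // ¬ g = 0}) :=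
    { toFun := fun e b => ⟨fun i => e.1 i b, fun h => e.2 b (fun i => congrFun h i)⟩
      invFun := fun f => ⟨fun i b => (f b).1 i, fun b h => (f b).2 (funext h)⟩
      left_inv := fun e => rfl
      right_inv := fun f => rfl }
  rw [Fintype.card_congr e1, Fintype.card_fun, Fintype.card_subtype_compl]
  simp

theorem finrank_lineSpan_le (μ T : ℕ) (hF : Fintype.card F = ℓ ^ (μ * T))
    (hn : n + 1 ≤ ℓ ^ μ) :
    Module.finrank (ZMod ℓ) (Submodule.span (ZMod ℓ)
      (Set.range fun wd : (Fin n → F) × (Fin n → F) => lineVec ℓ wd.1 wd.2)) ≤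
      (ℓ ^ ((n + 1) * μ) - 1) ^ T := by
  classical
  have hchar : CharP F ℓ := charP_of_card hF
  let _ : Algebra (ZMod ℓ) F := ZMod.algebra F ℓ
  set M := ℓ ^ μ with hM
  have hℓ : 0 < ℓ := (Fact.out : ℓ.Prime).pos
  have : NeZero M := ⟨by positivity⟩
  have hMT : M ^ T = ℓ ^ (μ * T) := by rw [hM, ← pow_mul]
  let G : (Option (Fin n) → Fin T → Fin M) → Option (Fin n) → ℕ :=
    fun e i => (finFunctionFinEquiv (e i) : ℕ)
  have hG : Function.Injective G := by
    intro a b hab
    funext i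
    exact finFunctionFinEquiv.injective (Fin.ext (congrFun hab i))
  have hGblock : ∀ e i (b : Fin T), G e i / M ^ (b : ℕ) % M = e i b := by
    intro e i b
    have := finFunctionFinEquiv_symm_apply_val (finFunctionFinEquiv (e i)) b
    rw [Equiv.symm_apply_apply] at this
    exact this.symm
  let J := {e : Option (Fin n) → Fin T → Fin M // ¬ ∀ b, ¬ ∀ i, e i b = 0}
  have h1 := finrank_span_add_card_le (J := J) (F := F)
    (Set.range fun wd : (Fin n → F) × (Fin n → F) => lineVec ℓ wd.1 wd.2)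
    (fun j => (mono (G j.1) : F × (Fin n → F) → F))
    (linearIndependent_mono _ (hG.comp Subtype.val_injective) (by
      intro j i
      rw [hF, ← hMT]
      exact Fin.is_lt _)) (by
      rintro ⟨e, he⟩ _ ⟨⟨w, d⟩, rfl⟩
      rw [sum_mul_lineVec]
      push Not at he
      obtain ⟨b, hb⟩ := he
      refine sum_mono_line μ T b b.2 hF hn _ (fun i => ?_) (fun i => ?_) w d
      · rw [← hMT]; exact Fin.is_lt _
      · have h2 := hGblock e i b
        rw [hb i] at h2
        rw [pow_mul]
        simpa using h2)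
  have h2 : Fintype.card J = Fintype.card (Option (Fin n) → Fin T → Fin M) -
      (M ^ (n + 1) - 1) ^ T := by
    rw [← card_bad n M T]
    exact Fintype.card_subtype_compl _
  have h3 : (M ^ (n + 1) - 1) ^ T ≤ Fintype.card (Option (Fin n) → Fin T → Fin M) := by
    rw [← card_bad n M T]
    exact Fintype.card_subtype_le _
  have h4 : Fintype.card (Option (Fin n) → Fin T → Fin M) = Fintype.card (F × (Fin n → F)) := by
    simp [hF, hMT, pow_succ, mul_comm]
  have h5 : ℓ ^ ((n + 1) * μ) = M ^ (n + 1) := by rw [hM, ← pow_mul, mul_comm]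
  rw [h5]
  omega

/-- `(N - 1) ^ T` is eventually at most `N ^ T / k`. -/
theorem exists_pow_small (N k : ℕ) (hN : 1 ≤ N) : ∃ T0, ∀ T ≥ T0, k * (N - 1) ^ T ≤ N ^ T := by
  have hN' : (0 : ℝ) < N := by exact_mod_cast hN
  have h1 : ((N - 1 : ℕ) : ℝ) / N < 1 := by
    rw [div_lt_one hN']
    exact_mod_cast (by omega : N - 1 < N)
  have h0 : (0 : ℝ) ≤ ((N - 1 : ℕ) : ℝ) / N := by positivity
  have h2 := tendsto_pow_atTop_nhds_zero_of_lt_one h0 h1
  have h3 := h2.const_mul (k : ℝ)
  rw [mul_zero] at h3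
  have h4 := h3.eventually (gt_mem_nhds (show (0 : ℝ) < 1 by norm_num))
  obtain ⟨T0, hT0⟩ := Filter.eventually_atTop.1 h4
  refine ⟨T0, fun T hT => ?_⟩
  have h5 := hT0 T hT
  rw [div_pow, ← mul_div_assoc, div_lt_one (by positivity)] at h5
  exact_mod_cast h5.le

end final

/-- The `p`-rank drop: for fixed `n` and `k`, there are arbitrarily large `t` such that over every
field with `p ^ t` elements the lines of `F × F^n` span a space of dimension at most
`card (F × F^n) / k`. -/
theorem exists_small_rank (p : ℕ) [Fact p.Prime] (n k μ : ℕ) (hμ : n + 1 ≤ p ^ μ) :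
    ∃ T0, ∀ T ≥ T0,
    ∀ (F : Type) [Field F] [Fintype F], Fintype.card F = p ^ (μ * T) →
      k * Module.finrank (ZMod p) (Submodule.span (ZMod p)
        (Set.range fun wd : (Fin n → F) × (Fin n → F) => lineVec p wd.1 wd.2)) ≤
      Fintype.card (F × (Fin n → F)) := by
  have hp : 0 < p := (Fact.out : p.Prime).pos
  obtain ⟨T0, hT0⟩ := exists_pow_small (p ^ ((n + 1) * μ)) k (Nat.one_le_pow _ _ hp)
  refine ⟨T0, fun T hT F _ _ hF => ?_⟩
  refine (Nat.mul_le_mul_left k (finrank_lineSpan_le μ T hF hμ)).trans ((hT0 T hT).trans ?_)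
  apply le_of_eq
  simp only [Fintype.card_prod, Fintype.card_fun, Fintype.card_fin, hF]
  rw [← pow_mul, ← pow_mul, ← pow_add]
  congr 1
  ring

end Crest.Agent.R184A.PR
end

-- ▼ part R184A/Gadgets
section

/-! Row 184, T2: existence of the closed gadget system over `F_p` (`p` odd): bulk only,
`exists_bulk` of `R199/GadgetCon.lean` for the matching, arbitrary disjoint triples as classes. -/

set_option autoImplicit false

namespace Crest.Agent.R184A

open Finset Crest.Agent.R199

namespace Gadg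

/-- Two points determine the direction. -/
lemma dir_unique {F : Type} [Field F] {n : ℕ} {p₁ p₂ : F × (Fin n → F)} (hp : p₁ ≠ p₂)
    {d d' : Fin n → F} (h1 : p₁.2 - p₁.1 • d = p₂.2 - p₂.1 • d)
    (h2 : p₁.2 - p₁.1 • d' = p₂.2 - p₂.1 • d') : d = d' := by
  have hne : p₁.1 ≠ p₂.1 := by
    intro he
    apply hp
    refine Prod.ext he ?_
    rw [he] at h1
    exact sub_left_injective h1
  have e1 : (p₁.1 - p₂.1) • d = p₁.2 - p₂.2 := by
    rw [sub_smul]
    have : p₁.2 = p₂.2 - p₂.1 • d + p₁.1 • d := by rw [← h1]; abel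
    rw [this]; abel
  have e2 : (p₁.1 - p₂.1) • d' = p₁.2 - p₂.2 := by
    rw [sub_smul]
    have : p₁.2 = p₂.2 - p₂.1 • d' + p₁.1 • d' := by rw [← h2]; abel
    rw [this]; abel
  exact smul_right_injective _ (sub_ne_zero.2 hne) (e1.trans e2.symm)

/-- The gadget system from the lines, the blocks of directions and the code. -/
theorem gadSys2_of_input {p g : ℕ} {P Z E S : Type} [Fintype P] [Fintype Z] [Fintype E] [Fintype S]
    [DecidableEq Z] [DecidableEq E] [DecidableEq S]
    (q : ℕ) (C : Submodule (ZMod p) (P → ZMod p)) (hfin : Module.Finite (ZMod p) C)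
    (hrank : Module.finrank (ZMod p) C < Fintype.card Z)
    (t : Z × Fin 3 → P) (t_inj : Function.Injective t)
    (b : Z → S → P → E)
    (line_card : ∀ x s w, (univ.filter fun r : P => b x s r = w).card ≤ q)
    (line_mem : ∀ x s w, (fun r : P => if b x s r = w then (1 : ZMod p) else 0) ∈ C)
    (ident : ∀ (x y : Z) (s₁ s₂ s₁' s₂' : S) (p₁ p₂ r₁ r₂ : P), p₁ ≠ p₂ → r₁ ≠ r₂ → s₁ ≠ s₂ →
      b x s₁ p₁ = b x s₁ p₂ → b y s₁' p₁ = b y s₁' p₂ →
      b x s₂ r₁ = b x s₂ r₂ → b y s₂' r₁ = b y s₂' r₂ → x = y ∧ s₁ = s₁')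
    (even_S : Even (Fintype.card S)) (big : 10 * (q * (q + 1) ^ g) + 20 ≤ Fintype.card S) :
    Nonempty (GadSys2 p Z C (E × S) g) := by
  have hSpos : 0 < Fintype.card S := by omega
  obtain ⟨s0⟩ : Nonempty S := Fintype.card_pos_iff.1 hSpos
  choose σ hinv hprop hcyc using
    fun x : Z => exists_bulk t t_inj (b x) q g (line_card x) even_S big
  let μ : Z → (E × S) × (Z × Fin 3) → (E × S) × (Z × Fin 3) :=
    fun x f => (vtxB t (b x) (σ x (f.2, f.1.2)), (σ x (f.2, f.1.2)).1)
  have hflag : ∀ x f, b x (μ x f).1.2 (t (μ x f).2) = (μ x f).1.1 := fun x f => rfl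
  have hto : ∀ x f, ((μ x f).2, (μ x f).1.2) = σ x (f.2, f.1.2) := fun x f => rfl
  have hvtx : ∀ x (f : (E × S) × (Z × Fin 3)), b x f.1.2 (t f.2) = f.1.1 →
      vtxB t (b x) (f.2, f.1.2) = f.1 := by
    rintro x ⟨⟨w, s⟩, j⟩ h
    exact Prod.ext h rfl
  have hinvμ : ∀ x (f : (E × S) × (Z × Fin 3)), b x f.1.2 (t f.2) = f.1.1 →
      μ x (μ x f) = f := by
    intro x f hf
    have h1 : μ x (μ x f) = (vtxB t (b x) (σ x ((μ x f).2, (μ x f).1.2)),
      (σ x ((μ x f).2, (μ x f).1.2)).1) := rfl
    rw [h1, hto, hinv x, hvtx x f hf]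
  have hclosed := fun x => (hcyc x).noClosed (hinv x)
  refine ⟨{
      fl := fun x v => univ.filter fun j => b x v.2 (t j) = v.1
      μ := μ
      μ_flag := ?_
      μ_invol := ?_
      μ_cls := ?_
      μ_ne := ?_
      girth := ?_
      uniq := ?_
      letters := ?_
      ev := fun j => (LinearMap.proj (t j)) ∘ₗ C.subtype
      finC := hfin
      rank_lt := hrank
      code := fun x v => ⟨fun r : P => if b x v.2 r = v.1 then (1 : ZMod p) else 0,
        line_mem x v.2 v.1⟩
      ev_one := ?_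
      ev_zero := ?_ }⟩
  · intro x f _
    rw [mem_filter]
    exact ⟨mem_univ _, hflag x f⟩
  · intro x f hf
    rw [mem_filter] at hf
    exact hinvμ x f hf.2
  · intro x f _
    exact (hprop x _).2.1
  · intro x f _ h
    exact (hprop x (f.2, f.1.2)).2.2.1 (congrArg Prod.snd h)
  · intro x n hn c hc hstep
    have hc' : ∀ i ≤ n, b x (c i).1.2 (t (c i).2) = (c i).1.1 := fun i hi =>
      (mem_filter.1 (hc i hi)).2
    have h := hclosed x n hn (fun i => ((c i).2, (c i).1.2)) ?_ (hprop x _).1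
    · intro h2
      apply h
      rw [hvtx x (c 0) (hc' 0 (Nat.zero_le n)), ← h2]
    · intro i hi
      refine ⟨(hprop x _).1, ?_, ?_⟩
      · rw [hvtx x (c (i + 1)) (hc' (i + 1) (by omega)), (hstep i hi).1]
      · intro h3
        apply (hstep i hi).2
        have h4 : (c (i + 1)).2 = (μ x (c i)).2 := congrArg Prod.fst h3
        exact Prod.ext (hstep i hi).1 h4
  · intro x y v w a b' h1 h2
    have x0 := h1 0 (by omega)
    have x1 := h1 1 (by omega)
    simp only [mem_filter, mem_univ, true_and] at x0 x1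
    have h3 := h2 0 (by omega)
    simp only [zero_add] at h3
    have hs : (v 0).2 ≠ (v 1).2 := by
      intro hss
      have h4 : (μ x (v 0, b' 0)).1.2 = (v 1).2 := by rw [h3.1]
      exact (hprop x (b' 0, (v 0).2)).2.2.2 (h4.trans hss.symm)
    obtain ⟨hxy, hss⟩ := ident x y (v 0).2 (v 1).2 (w 0).2 (w 1).2 (t (a 0)) (t (b' 0)) (t (a 1))
      (t (b' 1)) (fun h => x0.1 (t_inj h)) (fun h => x1.1 (t_inj h)) hs
      (x0.2.1.trans x0.2.2.1.symm) (x0.2.2.2.1.trans x0.2.2.2.2.symm)
      (x1.2.1.trans x1.2.2.1.symm) (x1.2.2.2.1.trans x1.2.2.2.2.symm)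
    refine ⟨hxy, Prod.ext ?_ hss⟩
    subst hxy
    rw [← x0.2.1, ← x0.2.2.2.1, hss]
  · intro x j
    refine ⟨(b x s0 (t j), s0), ?_⟩
    rw [mem_filter]
    exact ⟨mem_univ _, rfl⟩
  · intro x v j hj
    rw [mem_filter] at hj
    change (if b x v.2 (t j) = v.1 then (1 : ZMod p) else 0) = 1
    rw [if_pos hj.2]
  · intro x v j hj
    change (if b x v.2 (t j) = v.1 then (1 : ZMod p) else 0) = 0
    rw [if_neg]
    intro h
    exact hj (mem_filter.2 ⟨mem_univ _, h⟩)

end Gadg

theorem exists_gadSys2 (p : ℕ) [Fact p.Prime] (hp : p ≠ 2) (g : ℕ) :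
    ∃ (Z C W : Type) (_ : Fintype Z) (_ : Fintype W) (_ : AddCommGroup C)
      (_ : Module (ZMod p) C), Nonempty (GadSys2 p Z C W g) := by
  classical
  have hpp : p.Prime := Fact.out
  have hp3 : 3 ≤ p := by
    have := hpp.two_le
    omega
  have hodd : Odd p := hpp.odd_of_ne_two hp
  obtain ⟨c, hc⟩ : ∃ c, c = 2 * g + 30 := ⟨_, rfl⟩
  obtain ⟨n, hn⟩ : ∃ n, n = 3 * c := ⟨_, rfl⟩
  obtain ⟨μ, hμ'⟩ : ∃ μ, μ = n + 1 := ⟨_, rfl⟩
  have hμ : n + 1 ≤ p ^ μ := by
    rw [hμ']
    exact (Nat.lt_pow_self (by omega)).le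
  obtain ⟨T0, hT0⟩ := PR.exists_small_rank p n 4 μ hμ
  obtain ⟨e, he⟩ : ∃ e, e = μ * (T0 + 1) := ⟨_, rfl⟩
  have he0 : e ≠ 0 := by
    rw [he, hμ']; positivity
  have hc0 : c ≠ 0 := by omega
  let F := GaloisField p e
  let K := GaloisField p (e * c)
  have _ : Fintype F := Fintype.ofFinite F
  have _ : Fintype K := Fintype.ofFinite K
  have hF : Fintype.card F = p ^ e := by
    rw [Fintype.card_eq_nat_card]; exact GaloisField.card p e he0
  have hK : Fintype.card K = p ^ (e * c) := by
    rw [Fintype.card_eq_nat_card]; exact GaloisField.card p (e * c) (Nat.mul_ne_zero he0 hc0)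
  obtain ⟨q, hq⟩ : ∃ q, q = p ^ e := ⟨_, rfl⟩
  have hKq : Fintype.card K = q ^ c := by rw [hK, hq, ← pow_mul]
  rw [← hq] at hF
  have hq3 : 3 ≤ q := by
    rw [hq]
    calc 3 ≤ p := hp3
      _ = p ^ 1 := (pow_one p).symm
      _ ≤ p ^ e := Nat.pow_le_pow_right (by omega) (Nat.one_le_iff_ne_zero.2 he0)
  have hqodd : Odd q := by rw [hq]; exact hodd.pow
  have hrank := hT0 (T0 + 1) (Nat.le_succ _) F (by rw [hF, hq, he])
  have hP : Fintype.card (F × (Fin n → F)) = q ^ (n + 1) := by
    rw [Fintype.card_prod, Fintype.card_fun, Fintype.card_fin, hF, pow_succ]; ring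
  have hE : Fintype.card (Fin n → F) = Fintype.card K ^ 3 := by
    rw [Fintype.card_fun, Fintype.card_fin, hF, hKq, ← pow_mul, hn]; ring
  have hP9 : 9 ≤ q ^ (n + 1) := by
    calc 9 = 3 ^ 2 := rfl
      _ ≤ q ^ 2 := Nat.pow_le_pow_left hq3 2
      _ ≤ q ^ (n + 1) := Nat.pow_le_pow_right (by omega) (by omega)
  obtain ⟨m, hm⟩ : ∃ m, m = q ^ (n + 1) / 3 := ⟨_, rfl⟩
  obtain ⟨t⟩ : Nonempty (Fin m × Fin 3 ↪ F × (Fin n → F)) := by
    apply Function.Embedding.nonempty_of_card_le
    rw [hP, Fintype.card_prod, Fintype.card_fin, Fintype.card_fin]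
    omega
  have hX : Fintype.card (Fin m) ≤ Fintype.card K ^ 4 := by
    rw [Fintype.card_fin, hKq, ← pow_mul]
    calc m ≤ q ^ (n + 1) := by omega
      _ ≤ q ^ (c * 4) := Nat.pow_le_pow_right (by omega) (by omega)
  obtain ⟨δ, hδ, hδ2⟩ := exists_dirs K (Fin m) (Fin n → F) hE hX
  obtain ⟨C, hC⟩ : ∃ C : Submodule (ZMod p) (F × (Fin n → F) → ZMod p),
    C = Submodule.span (ZMod p)
      (Set.range fun wd : (Fin n → F) × (Fin n → F) => PR.lineVec p wd.1 wd.2) := ⟨_, rfl⟩
  rw [← hC, hP] at hrank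
  have hcardS : Fintype.card {s : K // s ≠ 0} = q ^ c - 1 := by
    rw [← hKq]
    have := Fintype.card_subtype_compl (fun s : K => s = 0)
    rw [this, Fintype.card_subtype_eq]
  refine ⟨Fin m, C, (Fin n → F) × {s : K // s ≠ 0}, inferInstance, inferInstance, inferInstance,
    inferInstance, Gadg.gadSys2_of_input q C inferInstance ?_ t t.injective
      (fun x s r => r.2 - r.1 • δ x s.1) ?_ ?_ ?_ ?_ ?_⟩
  · rw [Fintype.card_fin, hm]
    omega
  · intro x s w
    rw [← hF, ← card_univ (α := F)]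
    refine card_le_card_of_injOn Prod.fst (fun p _ => mem_coe.2 (mem_univ _)) ?_
    intro r hr r' hr' h
    have e1 : r.2 - r.1 • δ x s.1 = w := by simpa using hr
    have e2 : r'.2 - r'.1 • δ x s.1 = w := by simpa using hr'
    refine Prod.ext h ?_
    rw [← e2, h] at e1
    exact sub_left_injective e1
  · intro x s w
    rw [hC]
    apply Submodule.subset_span
    refine ⟨(w, δ x s.1), ?_⟩
    funext r
    simp only [PR.lineVec]
    have : r.2 = w + r.1 • δ x s.1 ↔ r.2 - r.1 • δ x s.1 = w := sub_eq_iff_eq_add.symm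
    by_cases h : r.2 - r.1 • δ x s.1 = w
    · rw [if_pos h, if_pos (this.2 h)]
    · rw [if_neg h, if_neg (fun h' => h (this.1 h'))]
  · intro x y s₁ s₂ s₁' s₂' p₁ p₂ r₁ r₂ hp hr hs a1 a2 a3 a4
    have e1 := Gadg.dir_unique hp a1 a2
    have e2 := Gadg.dir_unique hr a3 a4
    obtain ⟨e3, e4, -⟩ := hδ2 x y s₁.1 s₂.1 s₁'.1 s₂'.1 (fun h => hs (Subtype.ext h)) e1 e2
    exact ⟨e3, Subtype.ext e4⟩
  · rw [hcardS]
    obtain ⟨k, hk⟩ : Odd (q ^ c) := hqodd.pow
    rw [hk]
    exact ⟨k, by omega⟩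
  · rw [hcardS]
    have h3 : q + 1 ≤ q ^ 2 := by nlinarith
    have h4 : 31 ≤ q ^ 4 := le_trans (by norm_num) (Nat.pow_le_pow_left hq3 4)
    have h5 : (q + 1) ^ g ≤ (q ^ 2) ^ g := Nat.pow_le_pow_left h3 g
    have h6 : 1 ≤ q * (q + 1) ^ g := Nat.one_le_iff_ne_zero.2 (by positivity)
    have h7 : 31 * (q * (q + 1) ^ g) ≤ q ^ c := by
      calc 31 * (q * (q + 1) ^ g) ≤ q ^ 4 * (q * (q ^ 2) ^ g) :=
            Nat.mul_le_mul h4 (Nat.mul_le_mul_left _ h5)
        _ = q ^ (5 + 2 * g) := by rw [← pow_mul]; ring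
        _ ≤ q ^ c := Nat.pow_le_pow_right (by omega) (by omega)
    omega

end Crest.Agent.R184A
end

-- ▼ part R184A/Build2
section

/-! Row 184, T3: from the gadget system to signed design data (adaptation of `R199/Build1.lean`).

Positions: sheets `(x, v)` and nodes `(x, {f, μ x f})`; `(j,true)` leads from the sheet `v` with `j ∈ fl x v`
to the node of the flag `(v,j)`, `(j,false)` back.  `m = 14`.  Signs: an (arbitrary) order of the two
flags of every node. -/

set_option autoImplicit false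
set_option linter.unusedSectionVars false

namespace Crest.Agent.R184A

open Crest.Agent.R199 (PAct SCData)

namespace B2



variable {Z W : Type} {g : ℕ} (Γ : Gad2 Z Z W g)

/-- the flags -/
abbrev Flag (Z W : Type) := W × (Z × Fin 3)

/-- admissible nodes -/
def IsNode (ν : Z × Sym2 (Flag Z W)) : Prop :=
  ∃ f : Flag Z W, f.2 ∈ Γ.fl ν.1 f.1 ∧ ν.2 = s(f, Γ.μ ν.1 f)

/-- positions -/
abbrev Pos := (Z × W) ⊕ {ν : Z × Sym2 (Flag Z W) // IsNode Γ ν}

/-- the node of a flag -/
def node (x : Z) (f : Flag Z W) (h : f.2 ∈ Γ.fl x f.1) : Pos Γ :=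
  Sum.inr ⟨(x, s(f, Γ.μ x f)), (⟨f, h, rfl⟩ : IsNode Γ (x, s(f, Γ.μ x f)))⟩

theorem node_eq {x y : Z} {f f' : Flag Z W} {h : f.2 ∈ Γ.fl x f.1} {h' : f'.2 ∈ Γ.fl y f'.1} :
    node Γ x f h = node Γ y f' h' ↔ x = y ∧ (f = f' ∨ f = Γ.μ x f') := by
  unfold node
  rw [Sum.inr.injEq, Subtype.ext_iff, Prod.mk.injEq, Sym2.eq_iff]
  constructor
  · rintro ⟨rfl, h1 | h1⟩
    · exact ⟨rfl, Or.inl h1.1⟩
    · exact ⟨rfl, Or.inr h1.1⟩
  · rintro ⟨rfl, rfl | rfl⟩
    · exact ⟨rfl, Or.inl ⟨rfl, rfl⟩⟩
    · exact ⟨rfl, Or.inr ⟨rfl, Γ.μ_invol x f' h'⟩⟩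

theorem node_surj (ν : {ν : Z × Sym2 (Flag Z W) // IsNode Γ ν}) :
    ∃ (x : Z) (f : Flag Z W) (h : f.2 ∈ Γ.fl x f.1), (Sum.inr ν : Pos Γ) = node Γ x f h := by
  obtain ⟨⟨x, p⟩, f, h, hp⟩ := ν
  refine ⟨x, f, h, ?_⟩
  simp only at hp
  subst hp
  rfl

/-- the edges -/
def E (j : Z × Fin 3) (p q : Pos Γ) : Prop :=
  ∃ (x : Z) (v : W) (h : j ∈ Γ.fl x v), p = Sum.inl (x, v) ∧ q = node Γ x (v, j) h

theorem E_det {j : Z × Fin 3} {p q q' : Pos Γ} (h : E Γ j p q) (h' : E Γ j p q') : q = q' := by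
  obtain ⟨x, v, hj, rfl, rfl⟩ := h
  obtain ⟨x', v', hj', h1, rfl⟩ := h'
  rw [Sum.inl.injEq, Prod.mk.injEq] at h1
  obtain ⟨rfl, rfl⟩ := h1
  rfl

theorem E_codet {j : Z × Fin 3} {p p' q : Pos Γ} (h : E Γ j p q) (h' : E Γ j p' q) : p = p' := by
  obtain ⟨x, v, hj, rfl, rfl⟩ := h
  obtain ⟨x', v', hj', rfl, h1⟩ := h'
  rw [node_eq] at h1
  obtain ⟨rfl, h1 | h1⟩ := h1
  · rw [Prod.mk.injEq] at h1
    rw [h1.1]
  · exact absurd (congrArg Prod.snd h1).symm (Γ.μ_ne x (v', j) hj')

/-- edge relation for letters and inverse letters -/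
def EE (a : (Z × Fin 3) × Bool) (p q : Pos Γ) : Prop := if a.2 then E Γ a.1 p q else E Γ a.1 q p

theorem EE_det {a : (Z × Fin 3) × Bool} {p q q' : Pos Γ} (h : EE Γ a p q) (h' : EE Γ a p q') : q = q' := by
  unfold EE at h h'
  split_ifs at h h'
  · exact E_det Γ h h'
  · exact E_codet Γ h h'

theorem EE_symm {a : (Z × Fin 3) × Bool} {p q : Pos Γ} (h : EE Γ a p q) : EE Γ (a.1, !a.2) q p := by
  obtain ⟨j, b⟩ := a
  cases b <;> simpa [EE] using h

open Classical in
/-- the partial action -/
noncomputable def act : PAct (Z × Fin 3) (Pos Γ) where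
  st a p := if h : ∃ q, EE Γ a p q then some h.choose else none
  symm := by
    intro a p q h
    split_ifs at h with h1
    rw [Option.some.injEq] at h
    have h2 : EE Γ a p q := h ▸ h1.choose_spec
    have h3 := EE_symm Γ h2
    have h4 : ∃ q', EE Γ (a.1, !a.2) q q' := ⟨p, h3⟩
    rw [dif_pos h4, Option.some.injEq]
    exact EE_det Γ h4.choose_spec h3

theorem st_iff {a : (Z × Fin 3) × Bool} {p q : Pos Γ} : (act Γ).st a p = some q ↔ EE Γ a p q := by
  classical
  unfold act
  simp only
  constructor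
  · intro h
    split_ifs at h with h1
    rw [Option.some.injEq] at h
    exact h ▸ h1.choose_spec
  · intro h
    have h1 : ∃ q, EE Γ a p q := ⟨q, h⟩
    rw [dif_pos h1, Option.some.injEq]
    exact EE_det Γ h1.choose_spec h

theorem isSome_iff {a : (Z × Fin 3) × Bool} {p : Pos Γ} : ((act Γ).st a p).isSome ↔ ∃ q, EE Γ a p q := by
  rw [Option.isSome_iff_exists]
  exact exists_congr fun q => st_iff Γ

theorem st_inj {a : (Z × Fin 3) × Bool} {p p' q : Pos Γ} (h : (act Γ).st a p = some q)
    (h' : (act Γ).st a p' = some q) : p = p' := by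
  have h1 := (act Γ).symm _ _ _ h
  have h2 := (act Γ).symm _ _ _ h'
  rw [h1, Option.some.injEq] at h2
  exact h2

/-- the letters alternate -/
theorem isLeft_step {a : (Z × Fin 3) × Bool} {p q : Pos Γ} (h : EE Γ a p q) :
    p.isLeft = a.2 ∧ q.isLeft = !a.2 := by
  unfold EE at h
  split_ifs at h with h1
  · obtain ⟨x, v, hj, rfl, rfl⟩ := h
    rw [h1]; exact ⟨rfl, rfl⟩
  · obtain ⟨x, v, hj, rfl, rfl⟩ := h
    have : a.2 = false := by simpa using h1
    rw [this]; exact ⟨rfl, rfl⟩

/-- two steps from a sheet -/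
theorem step2 {a b : (Z × Fin 3) × Bool} {x : Z} {v : W} {p q : Pos Γ}
    (h1 : EE Γ a (Sum.inl (x, v)) p) (h2 : EE Γ b p q) (hred : a.1 = b.1 → a.2 = b.2) :
    ∃ v', q = Sum.inl (x, v') ∧ a.2 = true ∧ b.2 = false ∧ a.1 ∈ Γ.fl x v ∧ b.1 ∈ Γ.fl x v' ∧
      Γ.μ x (v, a.1) = (v', b.1) ∧ Γ.μ x (v, a.1) ≠ (v, a.1) := by
  have ha := isLeft_step Γ h1
  have hb := isLeft_step Γ h2
  have ha2 : a.2 = true := ha.1.symm
  have hb2 : b.2 = false := by rw [← hb.1, ha.2, ha2]; rfl
  unfold EE at h1 h2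
  rw [if_pos ha2] at h1
  rw [if_neg (by rw [hb2]; simp)] at h2
  obtain ⟨x1, v1, hj1, he1, rfl⟩ := h1
  rw [Sum.inl.injEq, Prod.mk.injEq] at he1
  obtain ⟨rfl, rfl⟩ := he1
  obtain ⟨x2, v2, hj2, rfl, he2⟩ := h2
  rw [node_eq] at he2
  obtain ⟨rfl, he2⟩ := he2
  have hne : a.1 ≠ b.1 := by
    intro h
    have := hred h
    rw [ha2, hb2] at this
    exact absurd this (by simp)
  rcases he2 with he2 | he2
  · exact absurd (congrArg Prod.snd he2) hne
  · have h3 : Γ.μ x (v, a.1) = (v2, b.1) := by rw [he2, Γ.μ_invol x _ hj2]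
    refine ⟨v2, rfl, ha2, hb2, hj1, hj2, h3, ?_⟩
    rw [h3]
    intro h4
    exact hne (congrArg Prod.snd h4).symm

/-- the sheet of a position -/
def vOf (w0 : W) (p : Pos Γ) : W := match p with
  | Sum.inl q => q.2
  | Sum.inr _ => w0

/-- walk starting at a sheet -/
theorem sheet_walk (N : ℕ) (P : ℕ → Pos Γ) (L : ℕ → (Z × Fin 3) × Bool) (x : Z) (v0 : W)
    (hst : ∀ i, i < 2 * N → EE Γ (L i) (P i) (P (i + 1)))
    (hred : ∀ i, i + 1 < 2 * N → (L i).1 = (L (i + 1)).1 → (L i).2 = (L (i + 1)).2)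
    (h0 : P 0 = Sum.inl (x, v0)) :
    ∃ v : ℕ → W, (∀ i ≤ N, P (2 * i) = Sum.inl (x, v i)) ∧
      ∀ i < N, (L (2 * i)).1 ∈ Γ.fl x (v i) ∧ (L (2 * i + 1)).1 ∈ Γ.fl x (v (i + 1)) ∧
        Γ.μ x (v i, (L (2 * i)).1) = (v (i + 1), (L (2 * i + 1)).1) ∧
        Γ.μ x (v i, (L (2 * i)).1) ≠ (v i, (L (2 * i)).1) ∧
        (L (2 * i)).2 = true ∧ (L (2 * i + 1)).2 = false := by
  have hP : ∀ i ≤ N, P (2 * i) = Sum.inl (x, vOf Γ v0 (P (2 * i))) := by
    intro i
    induction i with
    | zero => intro _; rw [mul_zero, h0]; rfl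
    | succ i ih =>
      intro hi
      have h1 := hst (2 * i) (by omega)
      rw [ih (by omega)] at h1
      obtain ⟨v', h2, -⟩ := step2 Γ h1 (hst (2 * i + 1) (by omega)) (hred (2 * i) (by omega))
      rw [show 2 * (i + 1) = 2 * i + 1 + 1 by ring, h2]
      rfl
  refine ⟨fun i => vOf Γ v0 (P (2 * i)), hP, ?_⟩
  intro i hi
  have h1 := hst (2 * i) (by omega)
  rw [hP i (by omega)] at h1
  obtain ⟨v', h2, h3, h4, h5, h6, h7, h8⟩ := step2 Γ h1 (hst (2 * i + 1) (by omega)) (hred (2 * i) (by omega))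
  have h9 : vOf Γ v0 (P (2 * (i + 1))) = v' := by
    rw [show 2 * (i + 1) = 2 * i + 1 + 1 by ring, h2]; rfl
  simp only [h9]
  exact ⟨h5, h6, h7, h8, h3, h4⟩

/-- no closed reduced walk at a sheet -/
theorem no_closed_sheet (N : ℕ) (hN : 1 ≤ N) (hNg : N < g) (P : ℕ → Pos Γ) (L : ℕ → (Z × Fin 3) × Bool)
    (hst : ∀ i, i < 2 * N → EE Γ (L i) (P i) (P (i + 1)))
    (hred : ∀ i, i + 1 < 2 * N → (L i).1 = (L (i + 1)).1 → (L i).2 = (L (i + 1)).2)
    (h0 : (P 0).isLeft = true) (hcl : P (2 * N) = P 0) : False := by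
  obtain ⟨⟨x, v0⟩, hx⟩ := Sum.isLeft_iff.1 h0
  obtain ⟨v, hv, hw⟩ := sheet_walk Γ N P L x v0 hst hred hx
  obtain ⟨n, rfl⟩ : ∃ n, N = n + 1 := ⟨N - 1, by omega⟩
  refine Γ.girth x n hNg (fun i => (v i, (L (2 * i)).1)) ?_ ?_ ?_
  · intro i hi
    have := hw i (by omega)
    exact this.1
  · intro i hi
    have h1 := hw i (by omega)
    have h2 := hw (i + 1) (by omega)
    refine ⟨by rw [h1.2.2.1], ?_⟩
    rw [h1.2.2.1]
    intro h3
    have h4 : (L (2 * (i + 1))).1 = (L (2 * i + 1)).1 := congrArg Prod.snd h3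
    have h5 := hred (2 * i + 1) (by omega) h4.symm
    rw [h1.2.2.2.2.2, show 2 * i + 1 + 1 = 2 * (i + 1) by ring, h2.2.2.2.2.1] at h5
    exact absurd h5 (by simp)
  · have h1 := hw n (by omega)
    rw [h1.2.2.1]
    simp only
    have h2 := hv (n + 1) le_rfl
    have h3 := hv 0 (by omega)
    rw [hcl] at h2
    rw [mul_zero, h2] at h3
    rw [Sum.inl.injEq, Prod.mk.injEq] at h3
    exact h3.2

theorem parity (n : ℕ) (P : ℕ → Pos Γ) (L : ℕ → (Z × Fin 3) × Bool)
    (hst : ∀ i, i < n → EE Γ (L i) (P i) (P (i + 1))) :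
    ∀ i ≤ n, (P i).isLeft = if i % 2 = 0 then (P 0).isLeft else !(P 0).isLeft := by
  intro i
  induction i with
  | zero => intro _; simp
  | succ i ih =>
    intro hi
    have h1 := ih (by omega)
    have h2 := isLeft_step Γ (hst i (by omega))
    rw [h2.2, ← h2.1, h1]
    rcases Nat.mod_two_eq_zero_or_one i with h | h
    · rw [if_pos h, if_neg (by omega)]
    · rw [if_neg (by omega), if_pos (by omega), Bool.not_not]

/-- a word read as functions -/
theorem word_path {w : List ((Z × Fin 3) × Bool)} {x y : Pos Γ} (h : (act Γ).read w x = some y)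
    (hr : FreeGroup.IsReduced w) (l0 : (Z × Fin 3) × Bool) :
    ∃ P : ℕ → Pos Γ, P 0 = x ∧ P w.length = y ∧
      (∀ i, i < w.length → EE Γ (w.getD i l0) (P i) (P (i + 1))) ∧
      (∀ i, i + 1 < w.length → (w.getD i l0).1 = (w.getD (i + 1) l0).1 →
        (w.getD i l0).2 = (w.getD (i + 1) l0).2) := by
  obtain ⟨P, h0, hlen, hP⟩ := Crest.Agent.R199.B1.read_path (act Γ) w x y h
  refine ⟨P, h0, hlen, ?_, ?_⟩
  · intro i hi
    have := hP i hi
    rw [st_iff] at this
    rwa [List.getD_eq_getElem _ _ hi]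
  · intro i hi
    rw [List.getD_eq_getElem _ _ hi, List.getD_eq_getElem _ _ (show i < w.length by omega)]
    exact (List.isChain_iff_getElem.1 hr) i hi

theorem girth_pos (hg : 140 ≤ g) (x : Pos Γ) (w : List ((Z × Fin 3) × Bool)) (hr : FreeGroup.IsReduced w)
    (hne : w ≠ []) (hlen : w.length < 20 * 14) : (act Γ).read w x ≠ some x := by
  intro h
  obtain ⟨l0, -⟩ := List.exists_mem_of_ne_nil w hne
  obtain ⟨P, h0, hl, hst, hred⟩ := word_path Γ h hr l0
  set L : ℕ → (Z × Fin 3) × Bool := fun i => w.getD i l0 with hL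
  have hpos : 0 < w.length := List.length_pos_iff.2 hne
  have hpar := parity Γ w.length P L hst w.length le_rfl
  have heven : w.length % 2 = 0 := by
    by_contra hodd
    rw [if_neg hodd, hl, h0] at hpar
    cases x <;> simp at hpar
  obtain ⟨N, hN⟩ : ∃ N, w.length = 2 * N := ⟨w.length / 2, by omega⟩
  rcases hx : x.isLeft with _ | _
  · -- node
    have hP1 : (P 1).isLeft = true := by
      have := parity Γ w.length P L hst 1 (by omega)
      rw [h0, hx] at this
      simpa using this
    by_cases hab : (L (2 * N - 1)).1 = (L 0).1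
    · -- the last letter is the inverse of the first
      have e0 := hst 0 (by omega)
      have e1 := hst (2 * N - 1) (by omega)
      have hL0 : (L 0).2 = false := by rw [← (isLeft_step Γ e0).1, h0, hx]
      have hL1 : (L (2 * N - 1)).2 = true := by
        have := (isLeft_step Γ e1).2
        rw [show 2 * N - 1 + 1 = w.length by omega, hl, hx] at this
        revert this
        cases (L (2 * N - 1)).2 <;> simp
      have hN2 : 2 ≤ N := by
        by_contra hlt
        have : N = 1 := by omega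
        subst this
        have := hred 0 (by omega) hab.symm
        rw [show (w.getD (0 + 1) l0) = L (2 * 1 - 1) from rfl, show w.getD 0 l0 = L 0 from rfl, hL0, hL1] at this
        exact absurd this (by simp)
      have hEq : P (2 * N - 1) = P 1 := by
        unfold EE at e0 e1
        rw [show w.getD 0 l0 = L 0 from rfl, if_neg (by rw [hL0]; simp), h0] at e0
        rw [show w.getD (2 * N - 1) l0 = L (2 * N - 1) from rfl, if_pos hL1,
          show 2 * N - 1 + 1 = w.length by omega, hl, hab] at e1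
        exact E_codet Γ e1 e0
      refine no_closed_sheet Γ (N - 1) (by omega) (by omega) (fun i => P (i + 1)) (fun i => L (i + 1)) ?_ ?_
        hP1 ?_
      · intro i hi; exact hst (i + 1) (by omega)
      · intro i hi; exact hred (i + 1) (by omega)
      · simp only [zero_add]
        rw [show 2 * (N - 1) + 1 = 2 * N - 1 by omega]; exact hEq
    · -- rotate
      refine no_closed_sheet Γ N (by omega) (by omega)
        (fun i => if i < 2 * N then P (i + 1) else P 1) (fun i => if i + 1 < 2 * N then L (i + 1) else L 0) ?_ ?_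
        (by rw [if_pos (by omega)]; exact hP1) ?_
      · intro i hi
        rw [if_pos hi]
        rcases Nat.lt_or_ge (i + 1) (2 * N) with h1 | h1
        · rw [if_pos h1, if_pos h1]; exact hst (i + 1) (by omega)
        · rw [if_neg (by omega), if_neg (by omega)]
          have : i + 1 = w.length := by omega
          rw [this, hl, ← h0]
          exact hst 0 (by omega)
      · intro i hi
        rw [if_pos hi]
        rcases Nat.lt_or_ge (i + 1 + 1) (2 * N) with h1 | h1
        · rw [if_pos h1]; exact hred (i + 1) (by omega)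
        · rw [if_neg (by omega)]
          intro h2
          exfalso
          apply hab
          rw [← h2]
          congr 2; omega
      · rw [if_neg (by omega), if_pos (by omega)]
  · -- sheet
    refine no_closed_sheet Γ N (by omega) (by omega) P L ?_ ?_ (by rw [h0, hx]) (by rw [← hN, hl, h0])
    · intro i hi; exact hst i (by omega)
    · intro i hi; exact hred i (by omega)

theorem uniq_pos (x y : Pos Γ) (w : List ((Z × Fin 3) × Bool)) (hr : FreeGroup.IsReduced w)
    (hlen : w.length = 14) (hx : ((act Γ).read w x).isSome) (hy : ((act Γ).read w y).isSome) : x = y := by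
  obtain ⟨x', hx⟩ := Option.isSome_iff_exists.1 hx
  obtain ⟨y', hy⟩ := Option.isSome_iff_exists.1 hy
  have hne : w ≠ [] := by
    intro h; rw [h] at hlen; simp at hlen
  obtain ⟨l0, -⟩ := List.exists_mem_of_ne_nil w hne
  obtain ⟨P, h0, -, hst, hred⟩ := word_path Γ hx hr l0
  obtain ⟨Q, k0, -, kst, -⟩ := word_path Γ hy hr l0
  rw [hlen] at hst kst hred
  set L : ℕ → (Z × Fin 3) × Bool := fun i => w.getD i l0 with hL
  have hst' : ∀ i, i < 14 → EE Γ (L i) (P i) (P (i + 1)) := hst
  have kst' : ∀ i, i < 14 → EE Γ (L i) (Q i) (Q (i + 1)) := kst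
  have hred' : ∀ i, i + 1 < 14 → (L i).1 = (L (i + 1)).1 → (L i).2 = (L (i + 1)).2 := hred
  have back : ∀ i, i < 14 → P (i + 1) = Q (i + 1) → P i = Q i := by
    intro i hi h
    have h1 := (st_iff Γ).2 (hst' i hi)
    have h2 := (st_iff Γ).2 (kst' i hi)
    rw [← h] at h2
    exact st_inj Γ h1 h2
  rcases hb : (L 0).2 with _ | _
  · -- nodes
    have hP1 : (P 1).isLeft = true := by rw [(isLeft_step Γ (hst' 0 (by omega))).2, hb]; rfl
    have hQ1 : (Q 1).isLeft = true := by rw [(isLeft_step Γ (kst' 0 (by omega))).2, hb]; rfl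
    obtain ⟨⟨x1, v1⟩, hx1⟩ := Sum.isLeft_iff.1 hP1
    obtain ⟨⟨y1, u1⟩, hy1⟩ := Sum.isLeft_iff.1 hQ1
    obtain ⟨v, hv, hv'⟩ := sheet_walk Γ 6 (fun i => P (i + 1)) (fun i => L (i + 1)) x1 v1
      (fun i hi => hst' (i + 1) (by omega)) (fun i hi => hred' (i + 1) (by omega)) hx1
    obtain ⟨u, hu, hu'⟩ := sheet_walk Γ 6 (fun i => Q (i + 1)) (fun i => L (i + 1)) y1 u1
      (fun i hi => kst' (i + 1) (by omega)) (fun i hi => hred' (i + 1) (by omega)) hy1
    -- the flag by which the first sheet is entered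
    have hE0 : (L 0).1 ∈ Γ.fl x1 (v 0) := by
      have h1 := hst' 0 (by omega)
      unfold EE at h1
      rw [if_neg (by rw [hb]; simp)] at h1
      obtain ⟨x2, v2, hj, h2, -⟩ := h1
      have h3 := hv 0 (by omega)
      rw [mul_zero, zero_add] at h3
      rw [zero_add, h3, Sum.inl.injEq, Prod.mk.injEq] at h2
      rw [h2.1, h2.2]; exact hj
    have hF0 : (L 0).1 ∈ Γ.fl y1 (u 0) := by
      have h1 := kst' 0 (by omega)
      unfold EE at h1
      rw [if_neg (by rw [hb]; simp)] at h1
      obtain ⟨x2, v2, hj, h2, -⟩ := h1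
      have h3 := hu 0 (by omega)
      rw [mul_zero, zero_add] at h3
      rw [zero_add, h3, Sum.inl.injEq, Prod.mk.injEq] at h2
      rw [h2.1, h2.2]; exact hj
    have hvv : ∀ i < 6, (L (2 * i)).1 ∈ Γ.fl x1 (v i) := by
      intro i hi
      rcases Nat.eq_zero_or_pos i with h3 | h3
      · subst h3; exact hE0
      · have e3 := (hv' (i - 1) (by omega)).2.1
        rwa [show 2 * (i - 1) + 1 + 1 = 2 * i by omega, show i - 1 + 1 = i by omega] at e3
    have huu : ∀ i < 6, (L (2 * i)).1 ∈ Γ.fl y1 (u i) := by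
      intro i hi
      rcases Nat.eq_zero_or_pos i with h3 | h3
      · subst h3; exact hF0
      · have e3 := (hu' (i - 1) (by omega)).2.1
        rwa [show 2 * (i - 1) + 1 + 1 = 2 * i by omega, show i - 1 + 1 = i by omega] at e3
    have hsgn : ∀ i < 6, (L (2 * i)).2 = false := by
      intro i hi
      rcases Nat.eq_zero_or_pos i with h3 | h3
      · subst h3; exact hb
      · have e3 := (hv' (i - 1) (by omega)).2.2.2.2.2
        rwa [show 2 * (i - 1) + 1 + 1 = 2 * i by omega] at e3
    obtain ⟨hxy, h00⟩ := Γ.uniq x1 y1 v u (fun i => (L (2 * i)).1) (fun i => (L (2 * i + 1)).1) (by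
        intro i hi
        have e1 := hv' i hi
        have e2 := hu' i hi
        refine ⟨?_, hvv i hi, e1.1, huu i hi, e2.1⟩
        intro h
        have h2 := hred' (2 * i) (by omega) h
        rw [hsgn i hi] at h2
        have h4 := e1.2.2.2.2.1
        rw [h4] at h2
        exact absurd h2 (by simp)) (by
        intro i hi
        have e1 := hv' i (by omega)
        have e2 := hu' i (by omega)
        exact ⟨e1.2.2.1, e2.2.2.1⟩)
    have h2 : P 1 = Q 1 := by
      have e1 := hv 0 (by omega)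
      have e2 := hu 0 (by omega)
      rw [mul_zero, zero_add] at e1 e2
      rw [e1, e2, hxy, h00]
    have h3 := back 0 (by omega) h2
    rw [h0, k0] at h3
    exact h3
  · -- sheets
    have hP0 : (P 0).isLeft = true := by rw [(isLeft_step Γ (hst' 0 (by omega))).1, hb]
    have hQ0 : (Q 0).isLeft = true := by rw [(isLeft_step Γ (kst' 0 (by omega))).1, hb]
    obtain ⟨⟨x1, v1⟩, hx1⟩ := Sum.isLeft_iff.1 hP0
    obtain ⟨⟨y1, u1⟩, hy1⟩ := Sum.isLeft_iff.1 hQ0
    obtain ⟨v, hv, hv'⟩ := sheet_walk Γ 7 P L x1 v1 (fun i hi => hst' i (by omega))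
      (fun i hi => hred' i (by omega)) hx1
    obtain ⟨u, hu, hu'⟩ := sheet_walk Γ 7 Q L y1 u1 (fun i hi => kst' i (by omega))
      (fun i hi => hred' i (by omega)) hy1
    obtain ⟨hxy, h00⟩ := Γ.uniq x1 y1 (fun i => v (i + 1)) (fun i => u (i + 1))
      (fun i => (L (2 * i + 1)).1) (fun i => (L (2 * (i + 1))).1) (by
        intro i hi
        have e1 := hv' i (by omega)
        have e2 := hu' i (by omega)
        have f1 := hv' (i + 1) (by omega)
        have f2 := hu' (i + 1) (by omega)
        refine ⟨?_, e1.2.1, f1.1, e2.2.1, f2.1⟩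
        intro h
        have h2 := hred' (2 * i + 1) (by omega) h
        rw [e1.2.2.2.2.2, show 2 * i + 1 + 1 = 2 * (i + 1) by ring, f1.2.2.2.2.1] at h2
        exact absurd h2 (by simp)) (by
        intro i hi
        have f1 := hv' (i + 1) (by omega)
        have f2 := hu' (i + 1) (by omega)
        exact ⟨f1.2.2.1, f2.2.2.1⟩)
    have h2 : P 2 = Q 2 := by
      have e1 := hv 1 (by omega)
      have e2 := hu 1 (by omega)
      simp only [mul_one, zero_add] at e1 e2 h00
      rw [e1, e2, hxy, h00]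
    have h3 := back 0 (by omega) (back 1 (by omega) h2)
    rw [h0, k0] at h3
    exact h3

/-- the gadget index of a position -/
def gOf (p : Pos Γ) : Z := match p with
  | Sum.inl q => q.1
  | Sum.inr ν => ν.1.1

theorem gOf_EE {a : (Z × Fin 3) × Bool} {p q : Pos Γ} (h : EE Γ a p q) : gOf Γ q = gOf Γ p := by
  unfold EE at h
  split_ifs at h
  · obtain ⟨x, v, hj, rfl, rfl⟩ := h; rfl
  · obtain ⟨x, v, hj, rfl, rfl⟩ := h; rfl

theorem gOf_read : ∀ (w : List ((Z × Fin 3) × Bool)) (p q : Pos Γ), (act Γ).read w p = some q →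
    gOf Γ q = gOf Γ p := by
  intro w
  induction w with
  | nil =>
    intro p q h
    simp only [PAct.read, Option.some.injEq] at h
    rw [h]
  | cons a w ih =>
    intro p q h
    simp only [PAct.read] at h
    obtain ⟨r, hr, h⟩ := Option.bind_eq_some_iff.1 h
    rw [ih r q h, gOf_EE Γ ((st_iff Γ).1 hr)]

/-- the chosen order of the two flags of a node -/
noncomputable def fst (f f' : Flag Z W) : Flag Z W := (Quot.out s(f, f')).1

theorem fst_comm (f f' : Flag Z W) : fst f f' = fst f' f := by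
  unfold fst
  rw [Sym2.eq_swap]

theorem fst_eq (f f' : Flag Z W) : fst f f' = f ∨ fst f f' = f' := by
  have h : fst f f' ∈ s(f, f') := Sym2.out_fst_mem _
  exact Sym2.mem_iff.1 h

open Classical in
/-- the sign of a flag -/
noncomputable def sgf (r : Z → Flag Z W) (x : Z) (f : Flag Z W) : ZMod 2 :=
  if f = r x ∨ f = Γ.μ x (r x) then 0 else if fst f (Γ.μ x f) = f then 1 else 0

/-- the sign of an edge -/
noncomputable def sgp (r : Z → Flag Z W) (j : Z × Fin 3) (p : Pos Γ) : ZMod 2 :=
  match p with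
  | Sum.inl q => sgf Γ r q.1 (q.2, j)
  | Sum.inr _ => 0

theorem sgf_root (r : Z → Flag Z W) (x : Z) (f : Flag Z W) (h : f = r x ∨ f = Γ.μ x (r x)) :
    sgf Γ r x f = 0 := by
  unfold sgf
  rw [if_pos h]

theorem sgf_add (r : Z → Flag Z W) (x : Z) (f : Flag Z W) (hf : f.2 ∈ Γ.fl x f.1)
    (hr : (r x).2 ∈ Γ.fl x (r x).1) (h1 : f ≠ r x) (h2 : f ≠ Γ.μ x (r x)) :
    sgf Γ r x f + sgf Γ r x (Γ.μ x f) = 1 := by
  have hne : Γ.μ x f ≠ f := fun h => Γ.μ_ne x f hf (congrArg Prod.snd h)
  have h3 : ¬ (f = r x ∨ f = Γ.μ x (r x)) := by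
    rintro (h | h)
    · exact h1 h
    · exact h2 h
  have h4 : ¬ (Γ.μ x f = r x ∨ Γ.μ x f = Γ.μ x (r x)) := by
    rintro (h | h)
    · apply h2
      rw [← h, Γ.μ_invol x f hf]
    · apply h1
      rw [← Γ.μ_invol x f hf, h, Γ.μ_invol x _ hr]
  unfold sgf
  rw [if_neg h3, if_neg h4, Γ.μ_invol x f hf, fst_comm (Γ.μ x f) f]
  rcases fst_eq f (Γ.μ x f) with h | h
  · rw [h, if_pos rfl, if_neg hne.symm, add_zero]
  · rw [h, if_neg hne, if_pos rfl, zero_add]

end B2

open B2 in
theorem exists_twData {p : ℕ} {Z C W : Type} [Fintype Z] [Fintype W] [AddCommGroup C]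
    [Module (ZMod p) C] (Γ : GadSys2 p Z C W 150) :
    Nonempty (TwData p (Z × Fin 3) Z C) := by
  classical
  have hEtrue : ∀ (j : Z × Fin 3) (p : Pos Γ.toGad2), ((act Γ.toGad2).st (j, true) p).isSome ↔
      ∃ q, E Γ.toGad2 j p q := fun j p => by rw [isSome_iff]; rfl
  have hEfalse : ∀ (j : Z × Fin 3) (p : Pos Γ.toGad2), ((act Γ.toGad2).st (j, false) p).isSome ↔
      ∃ q, E Γ.toGad2 j q p := fun j p => by rw [isSome_iff]; rfl
  have hin : ∀ (x : Z) (f : Flag Z W) (h : f.2 ∈ Γ.fl x f.1) (i : Z × Fin 3),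
      ((act Γ.toGad2).st (i, false) (node Γ.toGad2 x f h)).isSome ↔ (i = f.2 ∨ i = (Γ.μ x f).2) := by
    intro x f h i
    rw [hEfalse]
    constructor
    · rintro ⟨q, x', v', hj, rfl, he⟩
      rw [node_eq] at he
      obtain ⟨rfl, he | he⟩ := he
      · left; rw [he]
      · right; rw [he, Γ.μ_invol x _ hj]
    · rintro (rfl | rfl)
      · exact ⟨_, x, f.1, h, rfl, rfl⟩
      · refine ⟨_, x, (Γ.μ x f).1, Γ.μ_flag x f h, rfl, ?_⟩
        rw [node_eq]
        exact ⟨rfl, Or.inr (Γ.μ_invol x f h).symm⟩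
  -- the roots
  have hroot : ∀ x : Z, ∃ f : Flag Z W, f.2 ∈ Γ.fl x f.1 ∧ f.2.1 = x := by
    intro x
    obtain ⟨v, hv⟩ := Γ.letters x (x, 0)
    exact ⟨(v, (x, 0)), hv, rfl⟩
  choose r hr hrc using hroot
  -- the flags of a node
  have hstep : ∀ (x : Z) (f : Flag Z W) (h : f.2 ∈ Γ.fl x f.1) (i : Z × Fin 3) (q : Pos Γ.toGad2),
      (act Γ.toGad2).st (i, true) q = some (node Γ.toGad2 x f h) →
      ∃ v, q = Sum.inl (x, v) ∧ ((v, i) = f ∨ (v, i) = Γ.μ x f) := by
    intro x f h i q hq
    rw [st_iff] at hq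
    obtain ⟨x', v', hj, rfl, he⟩ := hq
    rw [node_eq] at he
    obtain ⟨rfl, he | he⟩ := he
    · exact ⟨v', rfl, Or.inl he.symm⟩
    · refine ⟨v', rfl, Or.inr ?_⟩
      rw [he, Γ.μ_invol x _ hj]
  refine ⟨{
    Pos := Pos Γ.toGad2
    finPos := inferInstance
    A := act Γ.toGad2
    m := 14
    two_le_m := by norm_num
    girth := fun x w hr hne hlen => girth_pos Γ.toGad2 (by norm_num) x w hr hne hlen
    uniq := fun x y w hr hlen hx hy => uniq_pos Γ.toGad2 x y w hr hlen hx hy
    letters := ?_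
    cls := Prod.fst
    ev := Γ.ev
    sh := fun p => p.isLeft = true
    code := fun p => match p with
      | Sum.inl q => Γ.code q.1 q.2
      | Sum.inr _ => 0
    finC := Γ.finC
    rank_lt := Γ.rank_lt
    sg := sgp Γ.toGad2 r
    ev_one := ?_
    ev_zero := ?_
    out_node := ?_
    root := fun z => node Γ.toGad2 z (r z) (hr z)
    root_node := ?_
    root_in := ?_
    node_in := ?_
    root_sep := ?_ }⟩
  · -- letters
    rintro ⟨j, b⟩
    obtain ⟨v, hj⟩ := Γ.letters j.1 j
    cases b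
    · exact ⟨node Γ.toGad2 j.1 (v, j) hj, (hEfalse _ _).2 ⟨_, j.1, v, hj, rfl, rfl⟩⟩
    · exact ⟨Sum.inl (j.1, v), (hEtrue _ _).2 ⟨_, j.1, v, hj, rfl, rfl⟩⟩
  · -- ev_one
    intro j p
    rw [hEtrue]
    rintro ⟨q, x, v, hj, rfl, rfl⟩
    exact ⟨rfl, Γ.ev_one x v j hj⟩
  · -- ev_zero
    intro j p h1 h2
    rw [hEtrue] at h2
    obtain ⟨⟨x, v⟩, rfl⟩ := Sum.isLeft_iff.1 h1
    refine Γ.ev_zero x v j fun hj => h2 ⟨_, x, v, hj, rfl, rfl⟩
  · -- out_node
    intro j x y h
    have h1 := isLeft_step Γ.toGad2 ((st_iff Γ.toGad2).1 h)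
    rw [h1.2]; simp
  · -- root_node
    intro z
    simp [node]
  · -- root_in
    intro z
    refine ⟨(r z).2, (Γ.μ z (r z)).2, (Γ.μ_ne z _ (hr z)).symm, hrc z, ?_, fun i => hin z (r z) (hr z) i,
      ?_⟩
    · rw [Γ.μ_cls z _ (hr z)]
      exact hrc z
    · intro i x hx
      obtain ⟨v, rfl, hv⟩ := hstep _ _ _ _ _ hx
      exact sgf_root Γ.toGad2 r z (v, i) hv
  · -- node_in
    intro y hy hd
    obtain ⟨q, rfl⟩ | ⟨ν, rfl⟩ : (∃ q, y = Sum.inl q) ∨ (∃ ν, y = Sum.inr ν) := by
      cases y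
      · exact Or.inl ⟨_, rfl⟩
      · exact Or.inr ⟨_, rfl⟩
    · exact absurd rfl hy
    · obtain ⟨x, f, h, he⟩ := node_surj Γ.toGad2 ν
      rw [he] at hd ⊢
      have h1 : f ≠ r x := by
        rintro rfl
        exact hd x rfl
      have h2 : f ≠ Γ.μ x (r x) := by
        intro h2
        apply hd x
        rw [node_eq]
        refine ⟨rfl, Or.inr ?_⟩
        rw [h2, Γ.μ_invol x _ (hr x)]
      have hne := Γ.μ_ne x f h
      refine ⟨f.2, (Γ.μ x f).2, hne.symm, (Γ.μ_cls x f h).symm, fun i => hin x f h i, ?_⟩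
      intro p p' hp hp'
      obtain ⟨v, rfl, hv⟩ := hstep _ _ _ _ _ hp
      obtain ⟨v', rfl, hv'⟩ := hstep _ _ _ _ _ hp'
      have e1 : (v, f.2) = f := by
        rcases hv with hv | hv
        · exact hv
        · exact absurd (congrArg Prod.snd hv).symm hne
      have e2 : (v', (Γ.μ x f).2) = Γ.μ x f := by
        rcases hv' with hv' | hv'
        · exact absurd (congrArg Prod.snd hv') hne
        · exact hv'
      show sgf Γ.toGad2 r x (v, f.2) + sgf Γ.toGad2 r x (v', (Γ.μ x f).2) = 1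
      rw [e1, e2]
      exact sgf_add Γ.toGad2 r x f h (hr x) h1 h2
  · -- root_sep
    intro z z' w h
    have h1 := gOf_read Γ.toGad2 w _ _ h
    simp only [gOf, node] at h1
    exact h1.symm

end Crest.Agent.R184A
private theorem rz_aa11b5f568 : type_of% @_root_.Crest.Agent.R184A.B2.gOf.eq_1 := @_root_.Crest.Agent.R184A.B2.gOf.eq_1 -- L472
end

-- ▼ part R184A/Central
section

/-! Row 184, T4: the central extension, from injectivity of `d2` (row 199, `Exact.lean`). -/

set_option autoImplicit false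

namespace Crest.Agent.R184A

open Crest.Agent.R199

namespace Cen

open Crest.Agent.R199.SC Crest.Agent.R199.Exact Crest.Agent.R199.Tor Crest.Agent.R199.Chase
open FreeGroup (IsReduced invRev)

variable {S : Type}

section inj

variable (P : PG S) {G : Type*} [Group G] (π : FreeGroup S →* G)

/-- injectivity of `d2` from levels (first half of `Tor.torsionFree_of_levels`) -/
theorem inj_of_levels
    (hrel : ∀ p w, P.W p w p → π (FreeGroup.mk w) = 1)
    (hemb : ∀ w p q, P.W p w q → π (FreeGroup.mk w) = 1 → q = p)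
    (lev : G → P.V → ℕ)
    (hlev : ∀ g p w q, P.W p w q → lev (g * π (FreeGroup.mk w)) q = lev g p)
    (N : ℕ)
    (girth : ∀ p w, IsReduced w → P.W p w p → w.length ≤ 2 * N + 2 → w = [])
    (near : ∀ g p, ∃ x₀, ∀ w y y', P.W p w y → y' ≠ y →
      lev (g * π (FreeGroup.mk w)) y' ≤ lev (g * π (FreeGroup.mk w)) y →
      ∃ u, u.length ≤ N ∧ P.W x₀ u y)
    (f : G →₀ (lg P).Z1) (hf : d2 (dev P π) f = 0) : f = 0 := by
  have hdev : ∀ {p q : P.V} {w}, P.W p w q → dev P π q = dev P π p * π (FreeGroup.mk w) :=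
    fun h => dev_W P π hrel h
  have hlevc : ∀ (g : G) (p : P.V), lev (g * dev P π p) p =
      lev (g * dev P π (bp P (comp P p))) (bp P (comp P p)) := by
    intro g p
    have h := wd_spec P p
    rw [hdev h, ← mul_assoc]
    exact hlev _ _ _ _ h
  refine inj2 (Γ := lg P) (dev P π) (comp P) ?_ ?_
    (fun g x => lev (g * dev P π (bp P x)) (bp P x)) ?_ f hf
  · intro e
    have h : P.W ((lg P).src e) [((lg P).lab e, true)] ((lg P).tgt e) := (P.W_single).2 e.2
    exact comp_eq P h
  · intro e e' hc hd hl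
    obtain ⟨w, hw⟩ : ∃ w, P.W ((lg P).src e) w ((lg P).src e') :=
      Quotient.exact (s := reach P) hc
    have h1 := hdev hw
    rw [hd] at h1
    have h2 : π (FreeGroup.mk w) = 1 := mul_eq_left.1 h1.symm
    have h3 := hemb _ _ _ hw h2
    have h4 : OutL P e ((lg P).src e) ((lg P).lab e, true) ((lg P).tgt e) := Or.inl ⟨rfl, rfl, rfl⟩
    have h5 : OutL P e' ((lg P).src e) ((lg P).lab e, true) ((lg P).tgt e') :=
      Or.inl ⟨h3.symm, by rw [hl], rfl⟩
    exact h4.inj h5
  · intro g x z hz hsup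
    set p := bp P x with hp
    have hpx : comp P p = x := Quotient.out_eq x
    obtain ⟨x₀, hx₀⟩ := near (g * dev P π p) p
    apply ball_cycle_zero P N girth x₀ z hz
    intro e he
    obtain ⟨hxe, g', e', hne, hle, hg, hlab⟩ := hsup e he
    -- words to the end points of `e`
    obtain ⟨w, hw⟩ : ∃ w, P.W p w ((lg P).src e) := by
      have : comp P p = comp P ((lg P).src e) := hpx.trans hxe.symm
      exact Quotient.exact (s := reach P) this
    have hw2 : P.W p (w ++ [((lg P).lab e, true)]) ((lg P).tgt e) := (P.W_concat).2 ⟨_, hw, e.2⟩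
    have hE' : P.E ((lg P).src e') ((lg P).lab e, true) ((lg P).tgt e') := by
      rw [← hlab]; exact e'.2
    have hsrc : (lg P).src e' ≠ (lg P).src e := by
      intro h
      rw [h] at hg hne
      apply hne
      rw [mul_right_cancel hg, hxe]
    have htgt : (lg P).tgt e' ≠ (lg P).tgt e := by
      intro h
      apply hsrc
      rw [h] at hE'
      exact P.E_backdet hE' e.2
    have hgw : g * dev P π p * π (FreeGroup.mk w) = g * dev P π ((lg P).src e) := by
      rw [hdev hw, mul_assoc]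
    have hlow : lev (g * dev P π ((lg P).src e)) ((lg P).src e') ≤
        lev (g * dev P π ((lg P).src e)) ((lg P).src e) := by
      have h1 := hlevc g' ((lg P).src e')
      have h2 := hlevc g ((lg P).src e)
      rw [hg] at h1
      rw [h1, h2, hxe]
      exact hle
    constructor
    · apply hx₀ w _ ((lg P).src e') hw hsrc
      rw [hgw]
      exact hlow
    · apply hx₀ _ _ ((lg P).tgt e') hw2 htgt
      have h1 : g * dev P π p * π (FreeGroup.mk (w ++ [((lg P).lab e, true)])) =
          g * dev P π ((lg P).src e) * π (FreeGroup.mk [((lg P).lab e, true)]) := by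
        rw [← FreeGroup.mul_mk, map_mul, ← mul_assoc, hgw]
      rw [h1, hlev _ _ _ _ ((P.W_single).2 hE'),
        hlev _ _ _ _ ((P.W_single).2 e.2)]
      exact hlow

end inj

section phi

variable (D : SCData S) (V : Volt D)

/-- the graph of the data -/
abbrev gr : LG S := lg (ofPAct D.A)

/-- the voltage of a chain -/
noncomputable def phi : ((gr D).Ed →₀ ℤ) →+ ZMod 2 :=
  Finsupp.liftAddHom fun e =>
    (AddMonoidHom.mulRight (V.v (e.1.2.1, true) e.1.1)).comp (Int.castAddHom (ZMod 2))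

theorem phi_single (e : (gr D).Ed) (n : ℤ) :
    phi D V (Finsupp.single e n) = (n : ZMod 2) * V.v (e.1.2.1, true) e.1.1 := by
  simp [phi]

theorem zmod2_neg (x : ZMod 2) : -x = x := by revert x; decide

/-- the walk of a word, with its voltage -/
theorem exists_walk (w : List (S × Bool)) : ∀ (p q : D.Pos), D.A.read w p = some q →
    ∃ l, (gr D).IsWalk p l q ∧ (gr D).word l = w ∧ phi D V ((gr D).chain l) = rvol D V w p := by
  induction w with
  | nil =>
    intro p q h
    refine ⟨[], ?_, rfl, ?_⟩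
    · exact Option.some.inj h
    · simp [LG.chain, rvol]
  | cons a w ih =>
    intro p q h
    rw [PAct.read_cons] at h
    obtain ⟨u, hu, h⟩ := Option.bind_eq_some_iff.1 h
    obtain ⟨l, h3, h4, h5⟩ := ih u q h
    obtain ⟨s, b⟩ := a
    have hr : rvol D V ((s, b) :: w) p = V.v (s, b) p + rvol D V w u := by
      rw [rvol, hu]
      rfl
    have hch : ∀ d : (gr D).Ed × Bool, (gr D).chain (d :: l) =
        Finsupp.single d.1 (LG.sgn d.2) + (gr D).chain l := by
      intro d
      simp [LG.chain]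
    cases b with
    | true =>
      refine ⟨(⟨(p, s, u), hu⟩, true) :: l, ⟨rfl, h3⟩, ?_, ?_⟩
      · show (s, true) :: (gr D).word l = _
        rw [h4]
      · rw [hch, map_add, h5, hr, phi_single]
        simp [LG.sgn]
    | false =>
      have h6 := D.A.symm _ _ _ hu
      simp only [Bool.not_false] at h6
      have h7 := V.symm _ _ _ hu
      simp only [Bool.not_false] at h7
      refine ⟨(⟨(u, s, p), h6⟩, false) :: l, ⟨rfl, h3⟩, ?_, ?_⟩
      · show (s, false) :: (gr D).word l = _
        rw [h4]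
      · rw [hch, map_add, h5, hr, phi_single]
        simp only [LG.sgn, Bool.false_eq_true, if_false, Int.cast_neg, Int.cast_one,
          one_mul, zmod2_neg]
        rw [h7]

variable {D}

/-- the voltage of a chain of cells -/
noncomputable def Phi : (D.Grp →₀ (gr D).Z1) →+ ZMod 2 :=
  Finsupp.liftAddHom fun _ => (phi D V).comp (gr D).Z1.subtype

theorem Phi_single (g : D.Grp) (z : (gr D).Z1) :
    Phi V (Finsupp.single g z) = phi D V (z : (gr D).Ed →₀ ℤ) := by
  simp [Phi]

theorem Phi_gact (h : D.Grp) (a : D.Grp →₀ (gr D).Z1) : Phi V (gact (gr D).Z1 h a) = Phi V a := by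
  induction a using Finsupp.induction_linear with
  | zero => simp
  | add a b ha hb => rw [map_add, map_add, map_add, ha, hb]
  | single g z => rw [gact_single, Phi_single, Phi_single]

end phi

section ext

variable {D : SCData S} (V : Volt D)

/-- the projection -/
abbrev pr (D : SCData S) : FreeGroup S →* D.Grp := PresentedGroup.mk D.rels

/-- the developing map -/
noncomputable abbrev dv (D : SCData S) : D.Pos → D.Grp := dev (ofPAct D.A) (pr D)

theorem hrel (p : D.Pos) (w : List (S × Bool)) (h : (ofPAct D.A).W p w p) :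
    pr D (FreeGroup.mk w) = 1 := by
  apply (QuotientGroup.eq_one_iff (FreeGroup.mk w)).2
  exact Subgroup.subset_normalClosure ⟨p, w, (ofPAct_W D.A).1 h, rfl⟩

/-- the subgroup of relations of the central extension -/
def Lsub : Subgroup (FreeGroup S × Multiplicative (ZMod 2)) where
  carrier := {x | ∃ b : D.Grp →₀ (gr D).Z1, d2 (dv D) b = Exact.D (pr D) x.1 ∧ pr D x.1 = 1 ∧
    x.2 = Multiplicative.ofAdd (Phi V b)}
  one_mem' := by
    refine ⟨0, ?_, map_one _, ?_⟩
    · rw [map_zero, Prod.fst_one, D_one]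
    · rw [map_zero]
      rfl
  mul_mem' := by
    rintro x y ⟨b, h1, h2, h3⟩ ⟨c, h4, h5, h6⟩
    refine ⟨b + c, ?_, ?_, ?_⟩
    · rw [map_add, h1, h4, Prod.fst_mul, D_mul, h2, gact_one]
    · rw [Prod.fst_mul, map_mul, h2, h5, one_mul]
    · rw [Prod.snd_mul, h3, h6, map_add]
      rfl
  inv_mem' := by
    rintro x ⟨b, h1, h2, h3⟩
    refine ⟨-b, ?_, ?_, ?_⟩
    · rw [map_neg, h1, Prod.fst_inv, D_inv, h2, inv_one, gact_one]
    · rw [Prod.fst_inv, map_inv, h2, inv_one]
    · rw [Prod.snd_inv, h3, map_neg]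
      rfl

instance Lsub_normal : (Lsub V).Normal := by
  refine ⟨?_⟩
  rintro ⟨w, c⟩ ⟨b, h1, h2, h3⟩ ⟨f, c'⟩
  simp only at h1 h2 h3
  refine ⟨gact (gr D).Z1 (pr D f) b, ?_, ?_, ?_⟩
  · show d2 (dv D) (gact (gr D).Z1 (pr D f) b) = Exact.D (pr D) (f * w * f⁻¹)
    rw [d2_gact, h1, D_mul, D_mul, D_inv, map_mul, h2, mul_one, map_neg, gact_gact_inv]
    abel
  · show pr D (f * w * f⁻¹) = 1
    rw [map_mul, map_mul, h2, mul_one, map_inv, mul_inv_cancel]
  · show c' * c * c'⁻¹ = _
    rw [Phi_gact, mul_comm c' c, mul_inv_cancel_right, h3]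

/-- the walk relation -/
theorem walk_mem (x : D.Pos) (w : List (S × Bool)) (h : D.A.read w x = some x) :
    ((FreeGroup.mk w, Multiplicative.ofAdd (rvol D V w x)) :
      FreeGroup S × Multiplicative (ZMod 2)) ∈ Lsub V := by
  obtain ⟨l, h1, h2, h3⟩ := exists_walk D V w x x h
  have hγ : ∀ e : (gr D).Ed, dv D ((gr D).tgt e) =
      dv D ((gr D).src e) * pr D (FreeGroup.of ((gr D).lab e)) := by
    intro e
    have h : (ofPAct D.A).W ((gr D).src e) [((gr D).lab e, true)] ((gr D).tgt e) :=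
      ((ofPAct D.A).W_single).2 e.2
    exact dev_W (ofPAct D.A) (pr D) hrel h
  obtain ⟨h4, h5⟩ := D_walk (Γ := gr D) (pr D) (dv D) hγ l x x h1
  rw [h2] at h4 h5
  refine ⟨gact (gr D).Z1 (dv D x)⁻¹ (Finsupp.single 1 ⟨(gr D).chain l, LG.chain_mem h1⟩), ?_, ?_, ?_⟩
  · show _ = Exact.D (pr D) (FreeGroup.mk w)
    rw [d2_gact, d2_single]
    show gact (S →₀ ℤ) (dv D x)⁻¹ (d2' (dv D) 1 ((gr D).chain l)) = _
    rw [← h4, gact_inv_gact]
  · exact mul_eq_left.1 h5
  · show Multiplicative.ofAdd (rvol D V w x) = _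
    rw [Phi_gact, Phi_single, ← h3]

end ext

end Cen

open Cen in
theorem exists_cext {S : Type} (D : SCData S) (M : D.Model) (V : Volt D) :
    ∃ (Γ : Type) (_ : Group Γ), Nonempty (CExt D V Γ) := by
  have hW : ∀ {p q : D.Pos} {w : List (S × Bool)},
      (Tor.ofPAct D.A).W p w q ↔ D.A.read w p = some q := Tor.ofPAct_W D.A
  have hinj : ∀ f : D.Grp →₀ (gr D).Z1, Exact.d2 (dv D) f = 0 → f = 0 := by
    refine inj_of_levels (Tor.ofPAct D.A) (G := D.Grp) (pr D) (fun p w h => hrel p w h) ?_
      (fun g p => M.cl g p) ?_ (6 * D.m) ?_ ?_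
    · intro w p q h h1
      exact M.embed w p q (hW.1 h) h1
    · intro g p w q h
      exact M.cl_same g p _ q ⟨w, hW.1 h, rfl⟩
    · intro p w hr h hl
      by_contra hne
      have := D.two_le_m
      exact D.girth p w hr hne (by omega) (hW.1 h)
    · intro g p
      obtain ⟨x₀, hx⟩ := M.near g p
      refine ⟨x₀, ?_⟩
      intro w y y' h hne hle
      obtain ⟨u, h1, h2⟩ := hx _ y y' ⟨w, hW.1 h, rfl⟩ hne hle
      exact ⟨u, h1, hW.2 h2⟩
  let Q := FreeGroup S × Multiplicative (ZMod 2)
  let mk : Q →* Q ⧸ Lsub V := QuotientGroup.mk' (Lsub V)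
  have hmk : Function.Surjective mk := QuotientGroup.mk'_surjective _
  have hlift : ∀ w : FreeGroup S, FreeGroup.lift (fun s => mk (FreeGroup.of s, 1)) w =
      mk (w, 1) := by
    intro w
    have : FreeGroup.lift (fun s => mk (FreeGroup.of s, 1)) =
        mk.comp (MonoidHom.inl (FreeGroup S) (Multiplicative (ZMod 2))) := by
      ext s
      rw [FreeGroup.lift_apply_of]
      rfl
    rw [this]
    rfl
  have hpow : ∀ c : ZMod 2, (mk (1, Multiplicative.ofAdd 1)) ^ c.val =
      mk (1, Multiplicative.ofAdd c) := by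
    intro c
    rw [← map_pow]
    congr 1
    refine Prod.ext (one_pow _) ?_
    show (Multiplicative.ofAdd (1 : ZMod 2)) ^ c.val = Multiplicative.ofAdd c
    rw [← ofAdd_nsmul, nsmul_one, ZMod.natCast_val, ZMod.cast_id', id]
  refine ⟨Q ⧸ Lsub V, inferInstance, ⟨{
    J := mk (1, Multiplicative.ofAdd 1)
    β := fun s => mk (FreeGroup.of s, 1)
    J_ne := ?_
    J_sq := ?_
    J_comm := ?_
    gen := ?_
    rel := ?_ }⟩⟩
  · intro h
    obtain ⟨b, h1, -, h3⟩ := (QuotientGroup.eq_one_iff _).1 h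
    have h4 : b = 0 := by
      apply hinj
      rw [h1]
      exact Exact.D_one _
    rw [h4, map_zero] at h3
    have h5 : (Multiplicative.ofAdd (1 : ZMod 2)) = Multiplicative.ofAdd 0 := h3
    exact absurd h5 (by decide)
  · rw [← map_mul]
    have : ((1, Multiplicative.ofAdd 1) : Q) * (1, Multiplicative.ofAdd 1) = 1 := by
      refine Prod.ext (one_mul _) ?_
      show (Multiplicative.ofAdd (1 : ZMod 2)) * Multiplicative.ofAdd 1 = 1
      decide
    rw [this, map_one]
  · intro g
    obtain ⟨⟨w, c⟩, rfl⟩ := hmk g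
    rw [← map_mul, ← map_mul]
    congr 1
    refine Prod.ext ?_ (mul_comm _ _)
    show w * 1 = 1 * w
    rw [mul_one, one_mul]
  · rw [eq_top_iff]
    rintro g -
    obtain ⟨⟨w, c⟩, rfl⟩ := hmk g
    have h1 : ((w, c) : Q) = (w, 1) * (1, c) := by
      refine Prod.ext ?_ ?_
      · show w = w * 1
        rw [mul_one]
      · show c = 1 * c
        rw [one_mul]
    rw [h1, map_mul]
    apply mul_mem
    · rw [← hlift w]
      have h2 : ∀ w : FreeGroup S, FreeGroup.lift (fun s => mk (FreeGroup.of s, 1)) w ∈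
          Subgroup.closure (insert (mk (1, Multiplicative.ofAdd 1))
            (Set.range fun s => mk (FreeGroup.of s, 1))) := by
        intro w
        refine FreeGroup.induction_on w ?_ ?_ ?_ ?_
        · rw [MonoidHom.map_one]
          exact one_mem _
        · intro s
          rw [FreeGroup.lift_apply_of]
          exact Subgroup.subset_closure (Set.mem_insert_of_mem _ ⟨s, rfl⟩)
        · intro s h
          rw [map_inv]
          exact inv_mem h
        · intro a b ha hb
          rw [map_mul]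
          exact mul_mem ha hb
      exact h2 w
    · have h3 := hpow (Multiplicative.toAdd c)
      rw [ofAdd_toAdd] at h3
      rw [← h3]
      exact pow_mem (Subgroup.subset_closure (Set.mem_insert _ _)) _
  · intro x w h
    rw [hlift, hpow]
    rw [← mul_inv_eq_one, ← map_inv, ← map_mul]
    apply (QuotientGroup.eq_one_iff _).2
    have h1 := walk_mem V x w h
    have h2 : ((FreeGroup.mk w, 1) : Q) * ((1, Multiplicative.ofAdd (rvol D V w x)) : Q)⁻¹ =
        (FreeGroup.mk w, Multiplicative.ofAdd (rvol D V w x)) := by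
      refine Prod.ext ?_ ?_
      · show FreeGroup.mk w * 1⁻¹ = _
        rw [inv_one, mul_one]
      · show 1 * (Multiplicative.ofAdd (rvol D V w x))⁻¹ = _
        rw [one_mul, ← ofAdd_neg, zmod2_neg]
    rw [h2]
    exact h1

end Crest.Agent.R184A
end

-- ▼ part R184A/Par

/-! Row 184, T5: the rank paradox from signed design data and a central extension
(adaptation of `R199/NotRF1.lean`).

For a position `y` in the component of `root z` let `g y = β(w) J^(rvol w)` for a word `w` from
`root z` to `y`.  `A`: rows `z`, chain of the sheets divided by 2; `B`: the boundary. -/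

set_option autoImplicit false

open Finset

namespace Crest.Agent.R184A

open Crest.Agent.R199

namespace ParA

section volt

variable {S : Type} (D : SCData S) (V : Volt D)

theorem rvol_append {w w' : List (S × Bool)} {x y : D.Pos} (h : D.A.read w x = some y) :
    rvol D V (w ++ w') x = rvol D V w x + rvol D V w' y := by
  induction w generalizing x with
  | nil =>
    have h1 : x = y := by simpa using h
    subst h1
    simp [rvol]
  | cons a w ih =>
    rw [PAct.read_cons] at h
    cases h' : D.A.st a x with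
    | none => rw [h'] at h; simp at h
    | some z =>
      rw [h'] at h
      have h2 := ih (x := z) (by simpa using h)
      simp only [List.cons_append, rvol, h', Option.getD_some, h2, add_assoc]

theorem rvol_invRev {w : List (S × Bool)} {x y : D.Pos} (h : D.A.read w x = some y) :
    rvol D V (FreeGroup.invRev w) y = rvol D V w x := by
  induction w generalizing x with
  | nil => simp [FreeGroup.invRev, rvol]
  | cons a w ih =>
    rw [PAct.read_cons] at h
    cases h' : D.A.st a x with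
    | none => rw [h'] at h; simp at h
    | some z =>
      rw [h'] at h
      have h0 : D.A.read w z = some y := by simpa using h
      have h1 := ih (x := z) h0
      have h2 := D.A.read_invRev h0
      have h3 : FreeGroup.invRev (a :: w) = FreeGroup.invRev w ++ [(a.1, !a.2)] := by
        simp [FreeGroup.invRev]
      rw [h3, rvol_append D V h2, h1]
      simp only [rvol, h', Option.getD_some, add_zero, V.symm a x z h']
      exact add_comm _ _

variable {Γ : Type} [Group Γ] (E : CExt D V Γ)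

/-- `J ^ s` -/
def Jz (s : ZMod 2) : Γ := E.J ^ s.val

theorem zmod2_cases (s : ZMod 2) : s = 0 ∨ s = 1 := by
  revert s
  decide

theorem Jz_zero : Jz D V E 0 = 1 := by
  rw [Jz, ZMod.val_zero, pow_zero]

theorem Jz_one : Jz D V E 1 = E.J := by
  rw [Jz, ZMod.val_one, pow_one]

theorem Jz_add (s t : ZMod 2) : Jz D V E (s + t) = Jz D V E s * Jz D V E t := by
  have h11 : (1 : ZMod 2) + 1 = 0 := by decide
  rcases zmod2_cases s with rfl | rfl <;> rcases zmod2_cases t with rfl | rfl
  · rw [add_zero, Jz_zero, mul_one]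
  · rw [zero_add, Jz_zero, one_mul]
  · rw [add_zero, Jz_zero, mul_one]
  · rw [h11, Jz_zero, Jz_one, E.J_sq]

theorem Jz_self (s : ZMod 2) : Jz D V E s * Jz D V E s = 1 := by
  rw [← Jz_add]
  have h : s + s = 0 := by revert s; decide
  rw [h, Jz_zero]

theorem Jz_comm (s : ZMod 2) (g : Γ) : g * Jz D V E s = Jz D V E s * g := by
  rcases zmod2_cases s with rfl | rfl
  · rw [Jz_zero, mul_one, one_mul]
  · rw [Jz_one, E.J_comm]

/-- value of a word -/
def gv (w : List (S × Bool)) : Γ := FreeGroup.lift E.β (FreeGroup.mk w)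

theorem gv_append (w w' : List (S × Bool)) : gv D V E (w ++ w') = gv D V E w * gv D V E w' := by
  unfold gv
  rw [← FreeGroup.mul_mk, map_mul]

theorem gv_invRev (w : List (S × Bool)) : gv D V E (FreeGroup.invRev w) = (gv D V E w)⁻¹ := by
  unfold gv
  rw [← FreeGroup.inv_mk, map_inv]

theorem gv_closed {x : D.Pos} {w : List (S × Bool)} (h : D.A.read w x = some x) :
    gv D V E w = Jz D V E (rvol D V w x) := E.rel x w h

/-- two words with the same end points -/
theorem gv_eq_of_read {x y : D.Pos} {w w' : List (S × Bool)} (h : D.A.read w x = some y)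
    (h' : D.A.read w' x = some y) :
    gv D V E w * Jz D V E (rvol D V w x) = gv D V E w' * Jz D V E (rvol D V w' x) := by
  have h1 : D.A.read (w ++ FreeGroup.invRev w') x = some x :=
    D.A.read_append_some.mpr ⟨y, h, D.A.read_invRev h'⟩
  have h2 := gv_closed D V E h1
  rw [gv_append, gv_invRev, rvol_append D V h, rvol_invRev D V h', Jz_add] at h2
  have h3 : gv D V E w = Jz D V E (rvol D V w x) * Jz D V E (rvol D V w' x) * gv D V E w' := by
    rw [← h2]
    group
  rw [h3, Jz_comm, ← mul_assoc, ← mul_assoc, Jz_self, one_mul, Jz_comm]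

/-- the developing map of the component of `x₀` (value `1` outside) -/
noncomputable def dev (x₀ y : D.Pos) : Γ :=
  open Classical in if h : ∃ w, D.A.read w x₀ = some y then
    gv D V E h.choose * Jz D V E (rvol D V h.choose x₀) else 1

theorem dev_eq {x₀ y : D.Pos} {w : List (S × Bool)} (h : D.A.read w x₀ = some y) :
    dev D V E x₀ y = gv D V E w * Jz D V E (rvol D V w x₀) := by
  classical
  have h' : ∃ w, D.A.read w x₀ = some y := ⟨w, h⟩
  rw [dev, dif_pos h']
  exact gv_eq_of_read D V E h'.choose_spec h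

theorem dev_self (x₀ : D.Pos) : dev D V E x₀ x₀ = 1 := by
  have h2 : D.A.read [] x₀ = some x₀ := rfl
  rw [dev_eq D V E h2]
  have h3 : gv D V E [] = 1 := by
    rw [gv, ← FreeGroup.one_eq_mk, map_one]
  rw [h3]
  simp only [rvol, Jz_zero, mul_one]

/-- the component -/
def K (x₀ y : D.Pos) : Prop := ∃ w, D.A.read w x₀ = some y

theorem K_step {x₀ y z : D.Pos} {a : S × Bool} (h : K D x₀ y) (h' : D.A.st a y = some z) :
    K D x₀ z := by
  obtain ⟨w, hw⟩ := h
  exact ⟨w ++ [a], D.A.read_append_some.mpr ⟨y, hw, by rw [D.A.read_singleton]; exact h'⟩⟩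

theorem dev_step {x₀ y z : D.Pos} {j : S} (h : K D x₀ y) (h' : D.A.st (j, true) y = some z) :
    dev D V E x₀ y * E.β j = dev D V E x₀ z * Jz D V E (V.v (j, true) y) := by
  obtain ⟨w, hw⟩ := h
  have h2 : D.A.read (w ++ [(j, true)]) x₀ = some z :=
    D.A.read_append_some.mpr ⟨y, hw, by rw [D.A.read_singleton]; exact h'⟩
  have h3 : gv D V E [(j, true)] = E.β j := by
    rw [gv]
    exact FreeGroup.lift_apply_of ..
  rw [dev_eq D V E h2, dev_eq D V E hw, gv_append, rvol_append D V hw, Jz_add, h3]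
  simp only [rvol, add_zero]
  rw [mul_assoc, mul_assoc, mul_assoc, mul_assoc, Jz_self, mul_one, ← Jz_comm]

end volt

section ring

variable {p : ℕ} [Fact p.Prime] {S Z C : Type} [Fintype S] [Fintype Z] [AddCommGroup C]
  [Module (ZMod p) C] (D : TwData p S Z C) {Γ : Type} [Group Γ] (E : CExt D.toSCData D.volt Γ)

/-- `g (1 - J)` -/
noncomputable def q (g : Γ) : MonoidAlgebra (ZMod p) Γ :=
  MonoidAlgebra.single g 1 * (1 - MonoidAlgebra.single E.J 1)

theorem q_J (g : Γ) : q D E (g * E.J) = - q D E g := by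
  rw [q, q, mul_sub, mul_sub, MonoidAlgebra.single_mul_single, MonoidAlgebra.single_mul_single,
    mul_assoc, E.J_sq, mul_one, mul_one, mul_one, mul_one]
  exact (neg_sub _ _).symm

theorem q_add {s t : ZMod 2} (h : s + t = 1) (g : Γ) :
    q D E (g * Jz D.toSCData D.volt E s) + q D E (g * Jz D.toSCData D.volt E t) = 0 := by
  rcases zmod2_cases s with rfl | rfl
  · have h2 : t = 1 := by rw [zero_add] at h; exact h
    rw [h2, Jz_zero, Jz_one, mul_one, q_J]
    exact add_neg_cancel _
  · have h2 : t = 0 := by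
      rcases zmod2_cases t with rfl | rfl
      · rfl
      · exact absurd h (by decide)
    rw [h2, Jz_zero, Jz_one, mul_one, q_J]
    exact neg_add_cancel _

/-- codewords of the component -/
noncomputable def ell (x₀ y : D.Pos) : C :=
  open Classical in if K D.toSCData x₀ y ∧ D.sh y then D.code y else 0

open Classical in
theorem ev_ell (x₀ y : D.Pos) (j : S) :
    D.ev j (ell D x₀ y) = if K D.toSCData x₀ y ∧ (D.A.st (j, true) y).isSome then 1 else 0 := by
  rw [ell]
  by_cases h : K D.toSCData x₀ y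
  · by_cases h1 : (D.A.st (j, true) y).isSome = true
    · obtain ⟨h2, h3⟩ := D.ev_one j y h1
      rw [if_pos ⟨h, h2⟩, if_pos ⟨h, h1⟩, h3]
    · rw [if_neg (show ¬ (K D.toSCData x₀ y ∧ (D.A.st (j, true) y).isSome = true) from
        fun h' => h1 h'.2)]
      by_cases h2 : D.sh y
      · rw [if_pos ⟨h, h2⟩, D.ev_zero j y h2 h1]
      · rw [if_neg (show ¬ (K D.toSCData x₀ y ∧ D.sh y) from fun h' => h2 h'.2), map_zero]
  · rw [if_neg (show ¬ (K D.toSCData x₀ y ∧ D.sh y) from fun h' => h h'.1),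
      if_neg (show ¬ (K D.toSCData x₀ y ∧ (D.A.st (j, true) y).isSome = true) from
        fun h' => h h'.1), map_zero]

open Classical in
/-- re-indexing by the nodes -/
theorem sum_nodes [Fintype D.Pos] (x₀ : D.Pos) (z' : Z) :
    (∑ y : D.Pos, ∑ j : S, if K D.toSCData x₀ y ∧ (D.A.st (j, true) y).isSome then
        (if D.cls j = z' then q D E (dev D.toSCData D.volt E x₀ y * E.β j) else 0) else 0) =
      ∑ n : D.Pos, ∑ j : S, if K D.toSCData x₀ n ∧ (D.A.st (j, false) n).isSome then
        (if D.cls j = z' then q D E (dev D.toSCData D.volt E x₀ n *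
          Jz D.toSCData D.volt E (D.sg j ((D.A.st (j, false) n).getD n))) else 0) else 0 := by
  rw [← Finset.sum_product' (s := univ) (t := univ)
    (f := fun (y : D.Pos) (j : S) => if K D.toSCData x₀ y ∧ (D.A.st (j, true) y).isSome then
        (if D.cls j = z' then q D E (dev D.toSCData D.volt E x₀ y * E.β j) else 0) else 0),
    ← Finset.sum_product' (s := univ) (t := univ)
    (f := fun (n : D.Pos) (j : S) => if K D.toSCData x₀ n ∧ (D.A.st (j, false) n).isSome then
        (if D.cls j = z' then q D E (dev D.toSCData D.volt E x₀ n *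
          Jz D.toSCData D.volt E (D.sg j ((D.A.st (j, false) n).getD n))) else 0) else 0),
    univ_product_univ]
  refine Eq.trans (Finset.sum_filter _ _).symm (Eq.trans ?_ (Finset.sum_filter _ _))
  refine Finset.sum_bij' (fun x _ => ((D.A.st (x.2, true) x.1).getD x.1, x.2))
    (fun x _ => ((D.A.st (x.2, false) x.1).getD x.1, x.2)) ?_ ?_ ?_ ?_ ?_
  · rintro ⟨y, j⟩ hx
    rw [mem_filter] at hx ⊢
    obtain ⟨-, h2, h3⟩ := hx
    simp only at h2 h3
    obtain ⟨n, hn⟩ := Option.isSome_iff_exists.1 h3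
    refine ⟨mem_univ _, ?_⟩
    simp only [hn, Option.getD_some]
    have h4 := D.A.symm _ _ _ hn
    simp only [Bool.not_true] at h4
    exact ⟨K_step D.toSCData h2 hn, by rw [h4]; rfl⟩
  · rintro ⟨n, j⟩ hx
    rw [mem_filter] at hx ⊢
    obtain ⟨-, h2, h3⟩ := hx
    simp only at h2 h3
    obtain ⟨y, hy⟩ := Option.isSome_iff_exists.1 h3
    refine ⟨mem_univ _, ?_⟩
    simp only [hy, Option.getD_some]
    have h4 := D.A.symm _ _ _ hy
    simp only [Bool.not_false] at h4
    exact ⟨K_step D.toSCData h2 hy, by rw [h4]; rfl⟩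
  · rintro ⟨y, j⟩ hx
    rw [mem_filter] at hx
    obtain ⟨-, h2, h3⟩ := hx
    simp only at h2 h3
    obtain ⟨n, hn⟩ := Option.isSome_iff_exists.1 h3
    have h4 := D.A.symm _ _ _ hn
    simp only [Bool.not_true] at h4
    simp only [hn, Option.getD_some, h4]
  · rintro ⟨n, j⟩ hx
    rw [mem_filter] at hx
    obtain ⟨-, h2, h3⟩ := hx
    simp only at h2 h3
    obtain ⟨y, hy⟩ := Option.isSome_iff_exists.1 h3
    have h4 := D.A.symm _ _ _ hy
    simp only [Bool.not_false] at h4
    simp only [hy, Option.getD_some, h4]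
  · rintro ⟨y, j⟩ hx
    rw [mem_filter] at hx
    obtain ⟨-, h2, h3⟩ := hx
    simp only at h2 h3
    obtain ⟨n, hn⟩ := Option.isSome_iff_exists.1 h3
    have h4 := D.A.symm _ _ _ hn
    simp only [Bool.not_true] at h4
    simp only [hn, Option.getD_some, h4]
    rw [dev_step D.toSCData D.volt E h2 hn]
    rfl

open Classical in
/-- the contribution of one node -/
theorem node_sum (z z' : Z) (n : D.Pos) :
    (∑ j : S, if K D.toSCData (D.root z) n ∧ (D.A.st (j, false) n).isSome then
        (if D.cls j = z' then q D E (dev D.toSCData D.volt E (D.root z) n *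
          Jz D.toSCData D.volt E (D.sg j ((D.A.st (j, false) n).getD n))) else 0) else 0) =
      if n = D.root z ∧ z = z' then q D E 1 + q D E 1 else 0 := by
  by_cases hK : K D.toSCData (D.root z) n
  · by_cases hs : D.sh n
    · rw [if_neg]
      · refine Finset.sum_eq_zero fun j _ => ?_
        rw [if_neg]
        rintro ⟨-, h⟩
        obtain ⟨y, hy⟩ := Option.isSome_iff_exists.1 h
        have h4 := D.A.symm _ _ _ hy
        simp only [Bool.not_false] at h4
        exact D.out_node j y n h4 hs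
      · rintro ⟨rfl, -⟩
        exact D.root_node z hs
    · by_cases hr : ∃ z'', D.root z'' = n
      · obtain ⟨z'', rfl⟩ := hr
        obtain ⟨w, hw⟩ := hK
        have h1 : z = z'' := D.root_sep z z'' w hw
        subst h1
        obtain ⟨j, j', hne, hc, hc', hj, hsg⟩ := D.root_in z
        have hK : K D.toSCData (D.root z) (D.root z) := ⟨w, hw⟩
        have hsg' : ∀ i, (D.A.st (i, false) (D.root z)).isSome →
            D.sg i ((D.A.st (i, false) (D.root z)).getD (D.root z)) = 0 := by
          intro i hi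
          obtain ⟨y, hy⟩ := Option.isSome_iff_exists.1 hi
          have h4 := D.A.symm _ _ _ hy
          simp only [Bool.not_false] at h4
          rw [hy, Option.getD_some]
          exact hsg i y h4
        rw [← sum_filter]
        have hf : (univ : Finset S).filter
            (fun i => K D.toSCData (D.root z) (D.root z) ∧
              (D.A.st (i, false) (D.root z)).isSome) = {j, j'} := by
          ext i
          rw [mem_filter, mem_insert, mem_singleton]
          constructor
          · rintro ⟨-, -, h⟩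
            exact (hj i).1 h
          · intro h
            exact ⟨mem_univ _, hK, (hj i).2 h⟩
        rw [hf, sum_pair hne, hc, hc', hsg' j ((hj j).2 (Or.inl rfl)),
          hsg' j' ((hj j').2 (Or.inr rfl)), Jz_zero, mul_one, dev_self]
        by_cases hz : z = z'
        · rw [if_pos hz, if_pos ⟨rfl, hz⟩]
        · rw [if_neg hz, if_neg (fun h => hz h.2), add_zero]
      · rw [if_neg (fun h => hr ⟨z, h.1.symm⟩)]
        obtain ⟨j, j', hne, hcls, hj, hsg⟩ := D.node_in n hs (fun z'' h => hr ⟨z'', h⟩)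
        obtain ⟨x, hx⟩ := Option.isSome_iff_exists.1 ((hj j).2 (Or.inl rfl))
        obtain ⟨x', hx'⟩ := Option.isSome_iff_exists.1 ((hj j').2 (Or.inr rfl))
        have h4 := D.A.symm _ _ _ hx
        have h4' := D.A.symm _ _ _ hx'
        simp only [Bool.not_false] at h4 h4'
        have h5 := hsg x x' h4 h4'
        rw [← sum_filter]
        have hf : (univ : Finset S).filter
            (fun i => K D.toSCData (D.root z) n ∧ (D.A.st (i, false) n).isSome) = {j, j'} := by
          ext i
          rw [mem_filter, mem_insert, mem_singleton]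
          constructor
          · rintro ⟨-, -, h⟩
            exact (hj i).1 h
          · intro h
            exact ⟨mem_univ _, hK, (hj i).2 h⟩
        rw [hf, sum_pair hne, hcls, hx, hx', Option.getD_some, Option.getD_some]
        by_cases hz : D.cls j' = z'
        · rw [if_pos hz, if_pos hz]
          exact q_add D E h5 _
        · rw [if_neg hz, if_neg hz, add_zero]
  · rw [if_neg]
    · refine Finset.sum_eq_zero fun j _ => ?_
      rw [if_neg]
      rintro ⟨h, -⟩
      exact hK h
    · rintro ⟨rfl, -⟩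
      exact hK ⟨[], rfl⟩

open Classical in
theorem sum_all [Fintype D.Pos] (z z' : Z) :
    (∑ y : D.Pos, ∑ j : S, if K D.toSCData (D.root z) y ∧ (D.A.st (j, true) y).isSome then
        (if D.cls j = z' then q D E (dev D.toSCData D.volt E (D.root z) y * E.β j) else 0) else 0) =
      if z = z' then q D E 1 + q D E 1 else 0 := by
  rw [sum_nodes]
  simp only [node_sum]
  rw [Finset.sum_eq_single (D.root z)]
  · by_cases hz : z = z'
    · rw [if_pos ⟨rfl, hz⟩, if_pos hz]
    · rw [if_neg (fun h => hz h.2), if_neg hz]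
  · intro n _ hn
    rw [if_neg (fun h => hn h.1)]
  · intro h
    exact absurd (mem_univ _) h

end ring

end ParA

open ParA

theorem exists_paradox_of_twData {p : ℕ} [Fact p.Prime] (hp : p ≠ 2) {S Z C : Type} [Fintype S]
    [Fintype Z] [AddCommGroup C] [Module (ZMod p) C] (D : TwData p S Z C) (Γ : Type) [Group Γ]
    (E : CExt D.toSCData D.volt Γ) : Nonempty (Paradox p Γ) := by
  classical
  have := D.finPos
  have := Fintype.ofFinite D.Pos
  have := D.finC
  have h2 : (2 : ZMod p) ≠ 0 := by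
    intro h
    have h3 : ((2 : ℕ) : ZMod p) = 0 := by exact_mod_cast h
    rw [ZMod.natCast_eq_zero_iff] at h3
    have h4 := (Nat.prime_dvd_prime_iff_eq (Fact.out : p.Prime) Nat.prime_two).1 h3
    exact hp h4
  let bC := Module.finBasis (ZMod p) C
  let eZ := Fintype.equivFin Z
  refine ⟨{
    fg := ?_
    J := E.J
    J_ne := E.J_ne
    J_sq := E.J_sq
    J_comm := E.J_comm
    a := Fintype.card Z
    b := Module.finrank (ZMod p) C
    lt := D.rank_lt
    A := Matrix.of fun i l => ∑ y : D.Pos,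
      MonoidAlgebra.single (dev D.toSCData D.volt E (D.root (eZ.symm i)) y)
        ((2 : ZMod p)⁻¹ * bC.repr (ell D (D.root (eZ.symm i)) y) l)
    B := Matrix.of fun l i => ∑ j : S,
      if D.cls j = eZ.symm i then MonoidAlgebra.single (E.β j) (D.ev j (bC l)) else 0
    mul_eq := ?_ }⟩
  · rw [Group.fg_iff]
    exact ⟨insert E.J (Set.range E.β), E.gen, (Set.finite_range _).insert _⟩
  · intro i i'
    have key : ∑ y : D.Pos, ∑ j : S, (if D.cls j = eZ.symm i' then
        MonoidAlgebra.single (dev D.toSCData D.volt E (D.root (eZ.symm i)) y * E.β j)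
          ((2 : ZMod p)⁻¹ * D.ev j (ell D (D.root (eZ.symm i)) y)) else 0) *
          (1 - MonoidAlgebra.single E.J (1 : ZMod p)) =
        (2 : ZMod p)⁻¹ • (if eZ.symm i = eZ.symm i' then q D E 1 + q D E 1 else 0) := by
      rw [← sum_all D E, Finset.smul_sum]
      refine Finset.sum_congr rfl fun y _ => ?_
      rw [Finset.smul_sum]
      refine Finset.sum_congr rfl fun j _ => ?_
      rw [ev_ell]
      by_cases h : K D.toSCData (D.root (eZ.symm i)) y ∧ (D.A.st (j, true) y).isSome
      · rw [if_pos h, if_pos h]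
        by_cases hc : D.cls j = eZ.symm i'
        · rw [if_pos hc, if_pos hc, mul_one, q, ← smul_mul_assoc, MonoidAlgebra.smul_single]
          simp
        · rw [if_neg hc, if_neg hc, zero_mul, smul_zero]
      · rw [if_neg h, if_neg h, mul_zero, smul_zero]
        simp
    have hAB : ∑ l : Fin (Module.finrank (ZMod p) C), (∑ y : D.Pos,
        MonoidAlgebra.single (dev D.toSCData D.volt E (D.root (eZ.symm i)) y)
          ((2 : ZMod p)⁻¹ * bC.repr (ell D (D.root (eZ.symm i)) y) l)) * (∑ j : S,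
        if D.cls j = eZ.symm i' then MonoidAlgebra.single (E.β j) (D.ev j (bC l)) else 0) =
        ∑ y : D.Pos, ∑ j : S, (if D.cls j = eZ.symm i' then
        MonoidAlgebra.single (dev D.toSCData D.volt E (D.root (eZ.symm i)) y * E.β j)
          ((2 : ZMod p)⁻¹ * D.ev j (ell D (D.root (eZ.symm i)) y)) else 0) := by
      simp only [Finset.sum_mul_sum]
      rw [Finset.sum_comm]
      refine Finset.sum_congr rfl fun y _ => ?_
      rw [Finset.sum_comm]
      refine Finset.sum_congr rfl fun j _ => ?_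
      by_cases hc : D.cls j = eZ.symm i'
      · simp only [if_pos hc, MonoidAlgebra.single_mul_single]
        have h3 : D.ev j (ell D (D.root (eZ.symm i)) y) =
            ∑ l, bC.repr (ell D (D.root (eZ.symm i)) y) l * D.ev j (bC l) := by
          conv_lhs => rw [← bC.sum_repr (ell D (D.root (eZ.symm i)) y)]
          rw [map_sum]
          refine Finset.sum_congr rfl fun l _ => ?_
          rw [map_smul, smul_eq_mul]
        rw [h3, Finset.mul_sum]
        have h4 : ∀ (t : Finset (Fin (Module.finrank (ZMod p) C)))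
            (f : Fin (Module.finrank (ZMod p) C) → ZMod p) (g : Γ),
            ∑ l ∈ t, MonoidAlgebra.single g (f l) =
              (MonoidAlgebra.single g (∑ l ∈ t, f l) : MonoidAlgebra (ZMod p) Γ) :=
          fun t f g => (map_sum (MonoidAlgebra.singleAddHom g) f t).symm
        rw [h4]
        congr 1
        refine Finset.sum_congr rfl fun l _ => ?_
        ring
      · simp only [if_neg hc, mul_zero, Finset.sum_const_zero]
    rw [Matrix.mul_apply]
    simp only [Matrix.of_apply]
    rw [hAB, sub_mul]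
    simp only [Finset.sum_mul]
    rw [key]
    by_cases hi : i = i'
    · subst hi
      rw [if_pos rfl, if_pos rfl, ← two_smul (ZMod p), smul_smul, inv_mul_cancel₀ h2, one_smul, q,
        ← MonoidAlgebra.one_def]
      exact sub_self _
    · rw [if_neg (fun h => hi (eZ.symm.injective h)), if_neg hi, smul_zero, zero_mul, sub_zero]

end Crest.Agent.R184A
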